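import Vale.Agent.P179.MathlibUsed
import Vale.Agent.P179.Defs
attribute [-instance] ProperSMul.toContinuousSMul IsTopologicalTorsor.toContinuousSMul IdemSemiring.toCanonicallyOrderedAdd IdemSemiring.toMulLeftMono IdemSemiring.toMulRightMono AddQuantale.instAddLeftMono AddQuantale.instAddRightMono Quantale.instMulLeftMono Quantale.instMulRightMono FiniteDimensional.rclike_to_real IsScalarTower.complexToReal FiniteDimensional.complexToReal

set_option linter.all false

section

section

/-! Normal p-complements: the theorem of Frobenius. -/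

namespace Vale.Agent.P179

open Subgroup
open scoped commutatorElement

universe u

/-- N_G(U)/C_G(U) is a p-group for every p-subgroup U. -/
def FrobCond (p : ℕ) (G : Type u) [Group G] : Prop :=
  ∀ U : Subgroup G, IsPGroup p U → ∀ g ∈ normalizer (U : Set G),
    ∃ n : ℕ, g ^ p ^ n ∈ centralizer (U : Set G)

section Basic

variable {G : Type u} [Group G]

theorem sup_sylow_eq_top {p : ℕ} [Fact p.Prime] [Finite G] (C : Subgroup G) [C.Normal]
    (hC : ∀ g : G, ∃ n : ℕ, g ^ p ^ n ∈ C) (X : Sylow p G) : C ⊔ (X : Subgroup G) = ⊤ := by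
  have h1 : IsPGroup p (G ⧸ C) := by
    intro x
    obtain ⟨g, rfl⟩ := QuotientGroup.mk_surjective x
    obtain ⟨n, hn⟩ := hC g
    exact ⟨n, by rw [← QuotientGroup.mk_pow]; exact (QuotientGroup.eq_one_iff _).2 hn⟩
  obtain ⟨m, hm⟩ := IsPGroup.iff_card.1 h1
  have h2 : (C ⊔ (X : Subgroup G)).index ∣ p ^ m := by
    rw [← hm]
    exact Subgroup.index_dvd_of_le le_sup_left
  have h3 : (C ⊔ (X : Subgroup G)).index ∣ (X : Subgroup G).index :=
    Subgroup.index_dvd_of_le le_sup_right
  have h4 : ¬ p ∣ (C ⊔ (X : Subgroup G)).index := fun h => X.not_dvd_index (h.trans h3)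
  obtain ⟨j, -, hj⟩ := (Nat.dvd_prime_pow (Fact.out : p.Prime)).1 h2
  rw [← Subgroup.index_eq_one, hj]
  rcases Nat.eq_zero_or_pos j with h | h
  · simp [h]
  · exact absurd (hj ▸ dvd_pow_self p h.ne') h4

/-- In a p-group normalizers grow. -/
theorem exists_mem_normalizer {p : ℕ} [Fact p.Prime] [Finite G] {S D : Subgroup G}
    (hS : IsPGroup p S) (hD : D < S) : ∃ x ∈ S, x ∉ D ∧ x ∈ normalizer (D : Set G) := by
  have hnil : Group.IsNilpotent S := hS.isNilpotent
  have hnc : NormalizerCondition S := Group.normalizerCondition_of_isNilpotent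
  have hlt : D.subgroupOf S < ⊤ := by
    rw [lt_top_iff_ne_top]
    intro h
    rw [subgroupOf_eq_top] at h
    exact absurd h (not_le_of_gt hD)
  obtain ⟨x, hx, hx'⟩ := SetLike.exists_of_lt (hnc _ hlt)
  refine ⟨x, x.2, fun h => hx' (mem_subgroupOf.2 h), ?_⟩
  rw [mem_normalizer_iff]
  intro h
  rw [mem_normalizer_iff] at hx
  constructor
  · intro hh
    have := (hx ⟨h, hD.le hh⟩).1 (mem_subgroupOf.2 hh)
    simpa [mem_subgroupOf] using this
  · intro hh
    have hhS : h ∈ S := by
      have := S.mul_mem (S.mul_mem (S.inv_mem x.2) (hD.le hh)) x.2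
      simpa [mul_assoc] using this
    have := (hx ⟨h, hhS⟩).2 (by simpa [mem_subgroupOf] using hh)
    exact mem_subgroupOf.1 this

theorem sylow_eq_of_le {p : ℕ} [Fact p.Prime] [Finite G] {S T : Sylow p G}
    (h : (S : Subgroup G) ≤ T) : S = T :=
  Sylow.ext (S.is_maximal' T.isPGroup' h).symm

theorem centralizer_antitone {D E : Subgroup G} (h : D ≤ E) {c : G}
    (hc : c ∈ centralizer (E : Set G)) : c ∈ centralizer (D : Set G) :=
  centralizer_le (show (D : Set G) ⊆ E from h) hc

/-- Two Sylow subgroups are conjugate under the centralizer of their intersection. -/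
theorem exists_centralizer_conj {p : ℕ} [Fact p.Prime] [Finite G] (hc : FrobCond p G) :
    ∀ (m : ℕ) (S T : Sylow p G),
      Nat.card G - Nat.card ((S : Subgroup G) ⊓ (T : Subgroup G) : Subgroup G) = m →
      ∃ c ∈ centralizer (((S : Subgroup G) ⊓ (T : Subgroup G) : Subgroup G) : Set G),
        c • S = T := by
  intro m
  induction m using Nat.strong_induction_on with
  | _ m ih =>
  intro S T hm
  by_cases hST : S = T
  · exact ⟨1, one_mem _, by simp [hST]⟩
  set D : Subgroup G := (S : Subgroup G) ⊓ (T : Subgroup G) with hD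
  have hDS : D < (S : Subgroup G) := by
    refine lt_of_le_of_ne inf_le_left fun h => hST ?_
    exact sylow_eq_of_le (inf_eq_left.1 h)
  have hDT : D < (T : Subgroup G) := by
    refine lt_of_le_of_ne inf_le_right fun h => hST ?_
    exact (sylow_eq_of_le (inf_eq_right.1 h)).symm
  -- a strictly larger intersection has smaller measure
  have key : ∀ S' T' : Sylow p G, D < (S' : Subgroup G) ⊓ (T' : Subgroup G) →
      ∃ c ∈ centralizer (D : Set G), c • S' = T' := by
    intro S' T' hlt
    have h1 : Nat.card D < Nat.card ((S' : Subgroup G) ⊓ (T' : Subgroup G) : Subgroup G) := by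
      apply Set.ncard_lt_ncard _ (Set.toFinite _)
      exact hlt
    have h2 : Nat.card ((S' : Subgroup G) ⊓ (T' : Subgroup G) : Subgroup G) ≤ Nat.card G :=
      Subgroup.card_le_card_group _
    obtain ⟨c, hcc, hcS⟩ := ih _ (by omega) S' T' rfl
    exact ⟨c, centralizer_antitone hlt.le hcc, hcS⟩
  have hpD : IsPGroup p D := S.isPGroup'.to_le hDS.le
  set N : Subgroup G := normalizer (D : Set G) with hN
  have hX : IsPGroup p (((S : Subgroup G) ⊓ N).subgroupOf N) :=
    (S.isPGroup'.to_le inf_le_left).comap_of_injective N.subtype N.subtype_injective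
  have hY : IsPGroup p (((T : Subgroup G) ⊓ N).subgroupOf N) :=
    (T.isPGroup'.to_le inf_le_left).comap_of_injective N.subtype N.subtype_injective
  obtain ⟨X, hX⟩ := hX.exists_le_sylow
  obtain ⟨Y, hY⟩ := hY.exists_le_sylow
  obtain ⟨n, hn⟩ := MulAction.exists_smul_eq N X Y
  set C : Subgroup N := (centralizer (D : Set G)).subgroupOf N with hC
  have hCn : C.Normal := by
    rw [hC]
    infer_instance
  have htop : C ⊔ (X : Subgroup N) = ⊤ := by
    apply sup_sylow_eq_top
    intro g
    obtain ⟨j, hj⟩ := hc D hpD g g.2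
    exact ⟨j, mem_subgroupOf.2 (by simpa using hj)⟩
  have hnm : n ∈ C ⊔ (X : Subgroup N) := by rw [htop]; trivial
  obtain ⟨c, hcC, x, hxX, rfl⟩ := mem_sup_of_normal_left.1 hnm
  have hcX : c • X = Y := by
    have hxx : x • X = X := by
      rw [Sylow.smul_eq_iff_mem_normalizer]
      exact le_normalizer hxX
    rw [← hn, mul_smul, hxx]
  obtain ⟨U, hU⟩ := (X.isPGroup'.map N.subtype).exists_le_sylow
  have h1 : D < (S : Subgroup G) ⊓ (U : Subgroup G) := by
    obtain ⟨y, hyS, hyD, hyN⟩ := exists_mem_normalizer S.isPGroup' hDS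
    have hyX : (⟨y, hyN⟩ : N) ∈ X := hX (mem_subgroupOf.2 ⟨hyS, hyN⟩)
    refine lt_of_le_of_ne (le_inf hDS.le ?_) ?_
    · intro d hd
      have hdN : d ∈ N := le_normalizer hd
      have hdX : (⟨d, hdN⟩ : N) ∈ X := hX (mem_subgroupOf.2 ⟨hDS.le hd, hdN⟩)
      exact hU (mem_map.2 ⟨_, hdX, rfl⟩)
    · intro h
      exact hyD (h ▸ ⟨hyS, hU (mem_map.2 ⟨_, hyX, rfl⟩)⟩)
  have h2 : D < (((c : G) • U : Sylow p G) : Subgroup G) ⊓ (T : Subgroup G) := by
    have hsub : ∀ y : N, y ∈ Y → (y : G) ∈ ((c : G) • U : Sylow p G) := by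
      intro y hy
      rw [← hcX] at hy
      rw [← SetLike.mem_coe, Sylow.coe_smul, Set.mem_smul_set] at hy ⊢
      obtain ⟨z, hz, rfl⟩ := hy
      exact ⟨z, hU (mem_map.2 ⟨z, hz, rfl⟩), by simp⟩
    obtain ⟨y, hyS, hyD, hyN⟩ := exists_mem_normalizer T.isPGroup' hDT
    have hyX : (⟨y, hyN⟩ : N) ∈ Y := hY (mem_subgroupOf.2 ⟨hyS, hyN⟩)
    refine lt_of_le_of_ne (le_inf ?_ hDT.le) ?_
    · intro d hd
      have hdN : d ∈ N := le_normalizer hd
      have hdX : (⟨d, hdN⟩ : N) ∈ Y := hY (mem_subgroupOf.2 ⟨hDT.le hd, hdN⟩)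
      exact hsub _ hdX
    · intro h
      exact hyD (h ▸ ⟨hsub _ hyX, hyS⟩)
  obtain ⟨a, haC, haS⟩ := key S U h1
  obtain ⟨b, hbC, hbS⟩ := key _ T h2
  refine ⟨b * c * a, mul_mem (mul_mem hbC (mem_subgroupOf.1 hcC)) haC, ?_⟩
  rw [mul_smul, mul_smul, haS, hbS]

/-- Under the Frobenius condition a Sylow subgroup controls its own fusion. -/
theorem fusion_of_frobCond {p : ℕ} [Fact p.Prime] [Finite G] (hc : FrobCond p G) (P : Sylow p G)
    {x g : G} (hx : x ∈ P) (hgx : g * x * g⁻¹ ∈ P) :
    ∃ u ∈ P, g * x * g⁻¹ = u * x * u⁻¹ := by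
  obtain ⟨c, hcC, hcS⟩ := exists_centralizer_conj hc _ P (g⁻¹ • P) rfl
  have hxI : x ∈ ((P : Subgroup G) ⊓ ((g⁻¹ • P : Sylow p G) : Subgroup G) : Subgroup G) := by
    refine ⟨hx, ?_⟩
    change x ∈ ((g⁻¹ • P : Sylow p G) : Set G)
    rw [Sylow.coe_smul, Set.mem_smul_set]
    exact ⟨g * x * g⁻¹, hgx, by simp [mul_assoc]⟩
  have hcx : c * x = x * c := (mem_centralizer_iff.1 hcC x hxI).symm
  have hgc : (g * c) • P = P := by rw [mul_smul, hcS, smul_inv_smul]
  rw [Sylow.smul_eq_iff_mem_normalizer] at hgc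
  set N : Subgroup G := normalizer ((P : Subgroup G) : Set G) with hN
  have hPN : (P : Subgroup G) ≤ N := le_normalizer
  have htop : (centralizer ((P : Subgroup G) : Set G)).subgroupOf N ⊔
      ((P.subtype hPN : Sylow p N) : Subgroup N) = ⊤ := by
    apply sup_sylow_eq_top
    intro g
    obtain ⟨j, hj⟩ := hc P P.isPGroup' g g.2
    exact ⟨j, mem_subgroupOf.2 (by simpa using hj)⟩
  have hmem : (⟨g * c, hgc⟩ : N) ∈ (centralizer ((P : Subgroup G) : Set G)).subgroupOf N ⊔
      ((P.subtype hPN : Sylow p N) : Subgroup N) := by rw [htop]; trivial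
  obtain ⟨⟨z, hzN⟩, hz, ⟨u, huN⟩, hu, hzu⟩ := mem_sup_of_normal_left.1 hmem
  have hzu' : z * u = g * c := congrArg Subtype.val hzu
  have huP : u ∈ P := by
    rw [Sylow.coe_subtype, mem_subgroupOf] at hu
    exact hu
  have hzC : z ∈ centralizer ((P : Subgroup G) : Set G) := mem_subgroupOf.1 hz
  refine ⟨u, huP, ?_⟩
  have h1 : u * x * u⁻¹ ∈ (P : Subgroup G) :=
    mul_mem (mul_mem huP hx) (inv_mem huP)
  have h2 : u * x * u⁻¹ * z = z * (u * x * u⁻¹) :=
    mem_centralizer_iff.1 hzC _ h1
  have h3 : g = z * u * c⁻¹ := by rw [hzu']; group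
  calc g * x * g⁻¹ = z * u * (c⁻¹ * x * c) * (z * u)⁻¹ := by rw [h3]; group
    _ = z * u * x * (z * u)⁻¹ := by
        have : c⁻¹ * x * c = x := by rw [mul_assoc, ← hcx]; group
        rw [this]
    _ = z * (u * x * u⁻¹) * z⁻¹ := by group
    _ = u * x * u⁻¹ := by rw [← h2]; group

theorem FrobCond.of_subgroup {p : ℕ} (hc : FrobCond p G) (K : Subgroup G) : FrobCond p K := by
  intro U hU g hg
  have h1 : (g : G) ∈ normalizer ((U.map K.subtype : Subgroup G) : Set G) := by
    rw [mem_normalizer_iff]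
    intro h
    rw [mem_normalizer_iff] at hg
    constructor
    · rintro ⟨y, hy, rfl⟩
      exact ⟨g * y * g⁻¹, (hg y).1 hy, by simp⟩
    · rintro ⟨y, hy, hyh⟩
      have hh : h = ((g⁻¹ * y * g : K) : G) := by
        have : (y : G) = g * h * (g : G)⁻¹ := hyh
        simp [this, mul_assoc]
      refine ⟨g⁻¹ * y * g, ?_, hh.symm⟩
      refine (hg _).2 ?_
      simpa [mul_assoc] using hy
  obtain ⟨n, hn⟩ := hc _ (hU.map K.subtype) g h1
  refine ⟨n, ?_⟩
  rw [mem_centralizer_iff] at hn ⊢
  intro h hh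
  have := hn h ⟨h, hh, rfl⟩
  exact Subtype.ext (by simpa using this)

theorem mem_of_pow_mem_of_coprime [Finite G] {p : ℕ} [Fact p.Prime] (L : Subgroup G) {g : G}
    (hg : ¬ p ∣ orderOf g) {n : ℕ} (h : g ^ p ^ n ∈ L) : g ∈ L := by
  have hco : Nat.Coprime (orderOf g) (p ^ n) :=
    (Nat.Coprime.pow_right n (((Fact.out : p.Prime).coprime_iff_not_dvd.2 hg).symm))
  obtain ⟨m, hm⟩ := exists_pow_eq_self_of_coprime hco.symm
  rw [← hm]
  exact pow_mem h m

end Basic

/-- Frobenius: if N_G(U)/C_G(U) is a p-group for all p-subgroups U, then G has a normal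
p-complement. -/
theorem exists_normal_complement {p : ℕ} [Fact p.Prime] :
    ∀ (m : ℕ) (G : Type u) [Group G] [Finite G], Nat.card G = m → FrobCond p G →
      ∃ L : Subgroup G, L.Normal ∧ ¬ p ∣ Nat.card L ∧ ∀ g : G, ∃ n : ℕ, g ^ p ^ n ∈ L := by
  intro m
  induction m using Nat.strong_induction_on with
  | _ m ih =>
  intro G _ _ hm hc
  by_cases hpG : p ∣ Nat.card G
  swap
  · exact ⟨⊤, inferInstance, by simpa using hpG, fun g => ⟨0, trivial⟩⟩
  let P : Sylow p G := default
  have hPne : (P : Subgroup G) ≠ ⊥ := P.ne_bot_of_dvd_card hpG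
  have hfoc : (P : Subgroup G).focalSubgroup ≤ ⁅(P : Subgroup G), (P : Subgroup G)⁆ := by
    rw [focalSubgroup_def, closure_le]
    rintro g ⟨hg, x, hx, u, rfl⟩
    have h1 : u * x⁻¹ * u⁻¹ ∈ (P : Subgroup G) := by
      have : x⁻¹ * ⁅x, u⁆ ∈ (P : Subgroup G) := mul_mem (inv_mem hx) hg
      simpa [commutatorElement_def, mul_assoc] using this
    obtain ⟨v, hv, hv'⟩ := fusion_of_frobCond hc P (inv_mem hx) h1
    have h2 : ⁅x, u⁆ = ⁅x, v⁆ := by
      rw [commutatorElement_def, commutatorElement_def, mul_assoc, mul_assoc,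
        ← mul_assoc u, hv', mul_assoc x, mul_assoc v]
      simp [mul_assoc]
    rw [h2]
    exact commutator_mem_commutator hx hv
  set K : Subgroup G := (P : Subgroup G).transferFocal.ker with hK
  have hKP : K ⊓ (P : Subgroup G) = (P : Subgroup G).focalSubgroup :=
    ker_transferFocal_inf_eq_focalSubgroup P
  have hKtop : K ≠ ⊤ := by
    intro h
    rw [h, top_inf_eq] at hKP
    have h1 : (P : Subgroup G) ≤ ⁅(P : Subgroup G), (P : Subgroup G)⁆ := hKP.le.trans hfoc
    have hnil : Group.IsNilpotent (P : Subgroup G) := P.isPGroup'.isNilpotent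
    have hsolv : Group.IsSolvable (P : Subgroup G) := inferInstance
    have hnt : Nontrivial (P : Subgroup G) := (nontrivial_iff_ne_bot _).2 hPne
    have h2 : _root_.commutator (P : Subgroup G) < ⊤ :=
      Group.IsSolvable.commutator_lt_top_of_nontrivial _
    apply h2.ne
    rw [← map_subtype_inj, map_subtype_commutator, ← MonoidHom.range_eq_map, range_subtype]
    refine le_antisymm ?_ h1
    exact commutator_le_self _
  have hKcard : Nat.card K < m := by
    rw [← hm]
    refine lt_of_le_of_ne (card_le_card_group K) fun h => hKtop ?_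
    exact eq_top_of_card_eq K h
  obtain ⟨L₀, hL₀n, hL₀p, hL₀⟩ := ih _ hKcard K rfl (hc.of_subgroup K)
  have hKn : K.Normal := by rw [hK]; infer_instance
  have hcardL : Nat.card (L₀.map K.subtype) = Nat.card L₀ :=
    (Nat.card_congr (L₀.equivMapOfInjective _ K.subtype_injective).toEquiv).symm
  refine ⟨L₀.map K.subtype, ⟨?_⟩, by rw [hcardL]; exact hL₀p, ?_⟩
  · rintro _ ⟨x, hx, rfl⟩ g
    have hord : ¬ p ∣ orderOf x := by
      intro h
      apply hL₀p
      have h1 : orderOf (⟨x, hx⟩ : L₀) = orderOf x := by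
        rw [← Subgroup.orderOf_coe]
      exact h.trans (h1 ▸ orderOf_dvd_natCard (⟨x, hx⟩ : L₀))
    have hgx : g * (x : G) * g⁻¹ ∈ K := hKn.conj_mem x x.2 g
    obtain ⟨n, hn⟩ := hL₀ ⟨g * (x : G) * g⁻¹, hgx⟩
    refine ⟨⟨g * (x : G) * g⁻¹, hgx⟩, ?_, rfl⟩
    refine mem_of_pow_mem_of_coprime L₀ ?_ hn
    have h2 : orderOf (⟨g * (x : G) * g⁻¹, hgx⟩ : K) = orderOf x := by
      rw [← Subgroup.orderOf_coe, ← Subgroup.orderOf_coe x]
      simp only
      have := orderOf_injective (MulAut.conj g).toMonoidHom (MulAut.conj g).injective (x : G)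
      simpa [MulAut.conj_apply] using this
    rw [h2]
    exact hord
  · intro g
    obtain ⟨n, hn⟩ := (P.isPGroup'.to_quotient (P : Subgroup G).focalSubgroupOf)
      ((P : Subgroup G).transferFocal g)
    have hgK : g ^ p ^ n ∈ K := by
      rw [hK, MonoidHom.mem_ker, map_pow, hn]
    obtain ⟨j, hj⟩ := hL₀ ⟨g ^ p ^ n, hgK⟩
    refine ⟨n + j, ⟨_, hj, ?_⟩⟩
    simp [pow_add, pow_mul]

end Vale.Agent.P179
end
end

section

section

/-! Complex representations of finite groups: Schur's lemma, integrality of central characters,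
divisibility of the degree, and averages over normal subgroups. -/

namespace Vale.Agent.P179

open Representation Module

section Irr

variable {Γ : Type*} [Group Γ] {V : Type*} [AddCommGroup V] [Module ℂ V]

theorem irr_bot_or_top (σ : Representation ℂ Γ V) [h : σ.IsIrreducible] (W : Submodule ℂ V)
    (hW : ∀ g, ∀ v ∈ W, σ g v ∈ W) : W = ⊥ ∨ W = ⊤ := by
  rcases h.eq_bot_or_eq_top ⟨W, fun g v hv => hW g v hv⟩ with h | h
  · left
    exact congrArg Subrepresentation.toSubmodule h
  · right
    exact congrArg Subrepresentation.toSubmodule h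

theorem irr_nontrivial (σ : Representation ℂ Γ V) [h : σ.IsIrreducible] : Nontrivial V := by
  by_contra hV
  rw [not_nontrivial_iff_subsingleton] at hV
  apply bot_ne_top (α := Subrepresentation σ)
  apply Subrepresentation.toSubmodule_injective
  exact Subsingleton.elim _ _

theorem irr_of_forall (σ : Representation ℂ Γ V) [Nontrivial V]
    (h : ∀ W : Submodule ℂ V, (∀ g, ∀ v ∈ W, σ g v ∈ W) → W = ⊥ ∨ W = ⊤) : σ.IsIrreducible := by
  have : Nontrivial (Subrepresentation σ) := by
    refine ⟨⊥, ⊤, fun hh => ?_⟩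
    exact bot_ne_top (congrArg Subrepresentation.toSubmodule hh : (⊥ : Submodule ℂ V) = ⊤)
  refine ⟨fun W => ?_⟩
  rcases h W.toSubmodule (fun g v hv => W.apply_mem_toSubmodule g hv) with h | h
  · left
    exact Subrepresentation.toSubmodule_injective h
  · right
    exact Subrepresentation.toSubmodule_injective h

theorem schur_scalar (σ : Representation ℂ Γ V) [h : σ.IsIrreducible] [FiniteDimensional ℂ V]
    (f : End ℂ V) (hf : ∀ g v, f (σ g v) = σ g (f v)) : ∃ c : ℂ, ∀ v, f v = c • v := by
  have := irr_nontrivial σ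
  obtain ⟨c, hc⟩ := Module.End.exists_eigenvalue f
  refine ⟨c, ?_⟩
  rcases irr_bot_or_top σ (f.eigenspace c) (fun g v hv => by
    rw [Module.End.mem_eigenspace_iff] at hv ⊢
    rw [hf, hv, map_smul]) with h | h
  · exact absurd h hc
  · intro v
    have : v ∈ f.eigenspace c := by rw [h]; trivial
    exact Module.End.mem_eigenspace_iff.1 this

/-- Average over a normal subgroup: the sum of the operators is zero or the subgroup acts
trivially. -/
theorem sum_normal (σ : Representation ℂ Γ V) [h : σ.IsIrreducible] (D : Subgroup Γ) [D.Normal]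
    [Fintype D] : (∀ v, ∑ d : D, σ d v = 0) ∨ ∀ d ∈ D, ∀ v, σ d v = v := by
  classical
  let f : End ℂ V := ∑ d : D, σ (d : Γ)
  have hfa : ∀ v, f v = ∑ d : D, σ (d : Γ) v := fun v => by simp [f]
  have hleft : ∀ d ∈ D, ∀ v, σ d (f v) = f v := by
    intro d hd v
    rw [hfa, map_sum]
    rw [← Equiv.sum_comp (Equiv.mulLeft (⟨d, hd⟩ : D)) (fun x : D => σ (x : Γ) v)]
    refine Finset.sum_congr rfl fun x _ => ?_
    simp [← Module.End.mul_apply, ← map_mul]
  have hcomm : ∀ g v, σ g (f v) = f (σ g v) := by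
    intro g v
    rw [hfa, hfa, map_sum]
    rw [← Equiv.sum_comp (MulAut.conjNormal (H := D) g).toEquiv
      (fun x : D => σ (x : Γ) (σ g v))]
    refine Finset.sum_congr rfl fun x _ => ?_
    simp [← Module.End.mul_apply, ← map_mul]
  rcases irr_bot_or_top σ (LinearMap.range f) (fun g v hv => by
    obtain ⟨w, rfl⟩ := hv
    exact ⟨σ g w, (hcomm g w).symm⟩) with h | h
  · left
    intro v
    rw [← hfa]
    have : f v ∈ LinearMap.range f := ⟨v, rfl⟩
    rw [h] at this
    simpa using this
  · right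
    intro d hd v
    have : v ∈ LinearMap.range f := by rw [h]; trivial
    obtain ⟨w, rfl⟩ := this
    exact hleft d hd w

/-- Values of characters are algebraic integers. -/
theorem isIntegral_character (σ : Representation ℂ Γ V) [FiniteDimensional ℂ V] [Finite Γ]
    (g : Γ) : IsIntegral ℤ (σ.character g) := by
  unfold Representation.character
  rw [Module.End.trace_eq_sum_roots_charpoly_of_splits (IsAlgClosed.splits _)]
  apply Multiset.sum_induction _ _ (fun a b ha hb => ha.add hb) isIntegral_zero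
  intro μ hμ
  rw [Polynomial.mem_roots (LinearMap.charpoly_monic _).ne_zero,
    ← Module.End.hasEigenvalue_iff_isRoot_charpoly] at hμ
  obtain ⟨v, hv⟩ := hμ.exists_hasEigenvector
  have hpow : ∀ n : ℕ, (σ g ^ n) v = μ ^ n • v := by
    intro n
    exact hv.pow_apply n
  have h1 : μ ^ (orderOf g) = 1 := by
    have := hpow (orderOf g)
    rw [← map_pow, pow_orderOf_eq_one, map_one, Module.End.one_apply] at this
    by_contra hne
    have h2 : (μ ^ orderOf g - 1) • v = 0 := by
      rw [sub_smul, ← this, one_smul, sub_self]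
    rcases smul_eq_zero.1 h2 with h2 | h2
    · exact hne (sub_eq_zero.1 h2)
    · exact hv.2 h2
  refine ⟨Polynomial.X ^ orderOf g - 1, ?_, ?_⟩
  · exact Polynomial.monic_X_pow_sub_C 1 (orderOf_pos g).ne'
  · simp [h1]

/-- Central characters take algebraic integer values on class sums. -/
theorem isIntegral_central (σ : Representation ℂ Γ V) [h : σ.IsIrreducible]
    [FiniteDimensional ℂ V] [Finite Γ] (C : ConjClasses Γ) (x : Γ) (hx : x ∈ C.carrier) :
    IsIntegral ℤ ((Nat.card C.carrier : ℂ) * σ.character x / finrank ℂ V) := by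
  classical
  have := Fintype.ofFinite Γ
  have hV := irr_nontrivial σ
  let f : End ℂ V := ∑ y : C.carrier, σ (y : Γ)
  have hfa : ∀ v, f v = ∑ y : C.carrier, σ (y : Γ) v := fun v => by simp [f]
  have hconj : ∀ (g : Γ) (y : C.carrier), g * y * g⁻¹ ∈ C.carrier := by
    intro g y
    have hy := y.2
    rw [ConjClasses.mem_carrier_iff_mk_eq] at hy ⊢
    refine Eq.trans ?_ hy
    exact ConjClasses.mk_eq_mk_iff_isConj.2 (isConj_iff.2 ⟨g⁻¹, by group⟩)
  have hcomm : ∀ g v, f (σ g v) = σ g (f v) := by
    intro g v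
    let e : C.carrier ≃ C.carrier :=
      { toFun := fun y => ⟨g * y * g⁻¹, hconj g y⟩
        invFun := fun y => ⟨g⁻¹ * y * g, by simpa using hconj g⁻¹ y⟩
        left_inv := fun y => by ext; simp [mul_assoc]
        right_inv := fun y => by ext; simp [mul_assoc] }
    rw [hfa, hfa, map_sum]
    rw [← Equiv.sum_comp e (fun y : C.carrier => σ (y : Γ) (σ g v))]
    refine Finset.sum_congr rfl fun y _ => ?_
    simp [e, ← Module.End.mul_apply, ← map_mul]
  obtain ⟨c, hc⟩ := schur_scalar σ f hcomm
  have hfc : f = algebraMap ℂ (End ℂ V) c := by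
    ext v
    rw [hc, Module.algebraMap_end_apply]
  have hint : IsIntegral ℤ f := by
    let K : MonoidAlgebra ℤ Γ := ∑ y : C.carrier, MonoidAlgebra.single (y : Γ) 1
    have hK : IsIntegral ℤ K := IsIntegral.of_finite ℤ K
    have := hK.map (MonoidAlgebra.lift ℤ (End ℂ V) Γ (σ : Γ →* End ℂ V))
    convert this using 1
    simp [K, f]
  have hcint : IsIntegral ℤ c := by
    rw [hfc] at hint
    exact (isIntegral_algebraMap_iff (FaithfulSMul.algebraMap_injective ℂ (End ℂ V))).1 hint
  have hchar : ∀ y : C.carrier, σ.character y = σ.character x := by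
    intro y
    have h1 := y.2
    rw [ConjClasses.mem_carrier_iff_mk_eq] at h1 hx
    have h2 := h1.trans hx.symm
    obtain ⟨g, hg⟩ := isConj_iff.1 (ConjClasses.mk_eq_mk_iff_isConj.1 h2)
    rw [← hg, char_conj]
  have htr : (Nat.card C.carrier : ℂ) * σ.character x = c * finrank ℂ V := by
    have h1 : LinearMap.trace ℂ V f = (Nat.card C.carrier : ℂ) * σ.character x := by
      simp only [f, map_sum]
      have : ∀ y : C.carrier, LinearMap.trace ℂ V (σ (y : Γ)) = σ.character x := hchar
      rw [Finset.sum_congr rfl (fun y _ => this y)]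
      simp [Nat.card_eq_fintype_card]
    rw [← h1, hfc]
    rw [Algebra.algebraMap_eq_smul_one, map_smul, LinearMap.trace_one, smul_eq_mul]
  have hd : (finrank ℂ V : ℂ) ≠ 0 := by
    exact_mod_cast (Module.finrank_pos (R := ℂ) (M := V)).ne'
  rw [htr, mul_div_assoc, div_self hd, mul_one]
  exact hcint

end Irr

/-- Summing a class function over the conjugacy classes. -/
theorem sum_classes {Γ : Type*} [Group Γ] [Fintype Γ] [Fintype (ConjClasses Γ)] {R : Type*}
    [Semiring R] (F : Γ → R) (hF : ∀ g x, F (g * x * g⁻¹) = F x) :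
    ∑ x, F x = ∑ C : ConjClasses Γ, (Nat.card C.carrier : R) * F C.out := by
  classical
  rw [← Finset.sum_fiberwise (s := Finset.univ) (g := ConjClasses.mk) (f := F)]
  refine Finset.sum_congr rfl fun C _ => ?_
  have hval : ∀ x ∈ Finset.univ.filter (fun x => ConjClasses.mk x = C), F x = F C.out := by
    intro x hx
    have hx' : ConjClasses.mk x = C := (Finset.mem_filter.1 hx).2
    have h2 : ConjClasses.mk (Quotient.out C) = ConjClasses.mk x :=
      (Quotient.out_eq C).trans hx'.symm
    obtain ⟨g, hg⟩ := isConj_iff.1 (ConjClasses.mk_eq_mk_iff_isConj.1 h2)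
    rw [← hg, hF]
  rw [Finset.sum_congr rfl hval, Finset.sum_const, nsmul_eq_mul]
  congr 2
  rw [← Fintype.card_subtype]
  rw [Nat.card_eq_fintype_card]
  refine Fintype.card_congr (Equiv.subtypeEquivRight fun x => ?_)
  exact ConjClasses.mem_carrier_iff_mk_eq.symm

theorem dvd_of_isIntegral_div {a b : ℕ} (hb : b ≠ 0) (h : IsIntegral ℤ ((a : ℂ) / b)) : b ∣ a := by
  have h1 : IsIntegral ℤ ((a : ℚ) / b) := by
    have : ((a : ℂ) / b) = algebraMap ℚ ℂ ((a : ℚ) / b) := by simp
    rw [this] at h
    exact (isIntegral_algebraMap_iff (algebraMap ℚ ℂ).injective).1 h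
  obtain ⟨m, hm⟩ := IsIntegrallyClosed.isIntegral_iff.1 h1
  have h2 : (a : ℚ) = m * b := by
    have hb' : (b : ℚ) ≠ 0 := by exact_mod_cast hb
    rw [eq_comm, div_eq_iff hb'] at hm
    simpa using hm
  have h3 : (a : ℤ) = m * b := by exact_mod_cast h2
  exact Int.natCast_dvd_natCast.1 ⟨m, by rw [h3, mul_comm]⟩

section Div

variable {Γ : Type*} [Group Γ] {V : Type*} [AddCommGroup V] [Module ℂ V]

theorem finrank_dvd_card (σ : Representation ℂ Γ V) [h : σ.IsIrreducible]
    [FiniteDimensional ℂ V] [Finite Γ] : finrank ℂ V ∣ Nat.card Γ := by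
  classical
  have := Fintype.ofFinite Γ
  have hV := irr_nontrivial σ
  have hd : (finrank ℂ V : ℂ) ≠ 0 := by
    exact_mod_cast (Module.finrank_pos (R := ℂ) (M := V)).ne'
  have hc : (Nat.card Γ : ℂ) ≠ 0 := by
    exact_mod_cast Nat.card_pos.ne'
  have : Invertible (Nat.card Γ : ℂ) := invertibleOfNonzero hc
  have h1 := char_orthonormal σ σ
  rw [if_pos ⟨Representation.Equiv.refl σ⟩, inv_mul_eq_iff_eq_mul₀ hc, mul_one] at h1
  apply dvd_of_isIntegral_div (by exact_mod_cast hd)
  rw [← h1, sum_classes _ (fun g x => by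
    rw [char_conj]
    congr 1
    have : (g * x * g⁻¹)⁻¹ = g * x⁻¹ * g⁻¹ := by group
    rw [this, char_conj]), Finset.sum_div]
  refine IsIntegral.sum _ fun C _ => ?_
  have h2 := isIntegral_central σ C C.out
    (ConjClasses.mem_carrier_iff_mk_eq.2 (Quotient.out_eq C))
  have h3 := h2.mul (isIntegral_character σ (Quotient.out C)⁻¹)
  convert h3 using 1
  ring

end Div

end Vale.Agent.P179
end
end

section

section

/-! Ring homomorphisms from the algebraic integers to a field of characteristic p. -/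

namespace Vale.Agent.P179

theorem exists_hom_of_integral (p : ℕ) [Fact p.Prime] (F k : Type*) [Field F] [CharP F p]
    [Field k] [IsAlgClosed k] [CharP k p] (h : ∀ x : F, IsIntegral ℤ x) :
    Nonempty (F →+* k) := by
  let _ : Algebra (ZMod p) F := ZMod.algebra F p
  let _ : Algebra (ZMod p) k := ZMod.algebra k p
  have halg : Algebra.IsAlgebraic (ZMod p) F := by
    refine ⟨fun x => ?_⟩
    apply IsIntegral.isAlgebraic
    obtain ⟨P, hP, hPy⟩ := h x
    refine ⟨P.map (Int.castRingHom (ZMod p)), hP.map _, ?_⟩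
    rw [Polynomial.eval₂_map]
    have : (algebraMap (ZMod p) F).comp (Int.castRingHom (ZMod p)) = algebraMap ℤ F :=
      Subsingleton.elim _ _
    rw [this, hPy]
  exact ⟨(IsAlgClosed.lift (R := ZMod p) (S := F) (M := k)).toRingHom⟩

/-- Reductions of the ring of algebraic integers exist. -/
theorem exists_rho (p : ℕ) [Fact p.Prime] (k : Type*) [Field k] [IsAlgClosed k] [CharP k p] :
    Nonempty (integralClosure ℤ ℂ →+* k) := by
  have hpp : p.Prime := Fact.out
  have hnu : ¬ IsUnit ((p : ℕ) : integralClosure ℤ ℂ) := by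
    intro h
    obtain ⟨u, hu⟩ := h.exists_right_inv
    have h1 : (p : ℂ) * (u : ℂ) = 1 := congrArg Subtype.val hu
    have hp0 : (p : ℂ) ≠ 0 := by exact_mod_cast hpp.ne_zero
    have h2 : (u : ℂ) = ((1 : ℕ) : ℂ) / p := by
      rw [eq_div_iff hp0, mul_comm, h1, Nat.cast_one]
    have h3 : IsIntegral ℤ (((1 : ℕ) : ℂ) / p) := h2 ▸ u.2
    have := dvd_of_isIntegral_div hpp.ne_zero h3
    exact hpp.one_lt.ne' (Nat.dvd_one.1 this)
  obtain ⟨M, hM, hpM⟩ := exists_max_ideal_of_mem_nonunits hnu
  have hint : ∀ x : integralClosure ℤ ℂ ⧸ M, IsIntegral ℤ x := by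
    intro x
    obtain ⟨y, rfl⟩ := Ideal.Quotient.mk_surjective x
    exact (integralClosure.isIntegral y : IsIntegral ℤ y).map (Ideal.Quotient.mkₐ ℤ M)
  have h1 : ((p : ℕ) : integralClosure ℤ ℂ ⧸ M) = 0 := by
    rw [← map_natCast (Ideal.Quotient.mk M)]
    exact Ideal.Quotient.eq_zero_iff_mem.2 hpM
  have hchar : CharP (integralClosure ℤ ℂ ⧸ M) p := by
    have hnt : Nontrivial (integralClosure ℤ ℂ ⧸ M) := Ideal.Quotient.nontrivial_iff.2 hM.ne_top
    obtain ⟨q, hq⟩ := CharP.exists (integralClosure ℤ ℂ ⧸ M)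
    have h2 : q ∣ p := (CharP.cast_eq_zero_iff _ q p).1 h1
    rcases (Nat.dvd_prime hpp).1 h2 with h | h
    · subst h
      have h3 := (CharP.cast_eq_zero_iff (integralClosure ℤ ℂ ⧸ M) 1 1).2 dvd_rfl
      rw [Nat.cast_one] at h3
      exact absurd h3 one_ne_zero
    · subst h
      exact hq
  let _ : Field (integralClosure ℤ ℂ ⧸ M) := Ideal.Quotient.field M
  obtain ⟨f⟩ := exists_hom_of_integral p (integralClosure ℤ ℂ ⧸ M) k hint
  exact ⟨f.comp (Ideal.Quotient.mk M)⟩

end Vale.Agent.P179
end
end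

section

section

/-! Modules over kG: the principal block. -/

namespace Vale.Agent.P179

open Subgroup

section Sum

/-- Sums of invariant functions under the action of a p-group in characteristic p. -/
theorem sum_eq_sum_fixed {p : ℕ} [Fact p.Prime] {P : Type*} [Group P] (hP : IsPGroup p P)
    {X : Type*} [Fintype X] [MulAction P X] {k : Type*} [Field k] [CharP k p] (f : X → k)
    (hf : ∀ (g : P) x, f (g • x) = f x) [DecidablePred (· ∈ MulAction.fixedPoints P X)] :
    ∑ x, f x = ∑ x with x ∈ MulAction.fixedPoints P X, f x := by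
  classical
  rw [← Finset.sum_fiberwise_of_maps_to (s := Finset.univ) (t := Finset.univ.image f) (g := f)
    (fun x _ => Finset.mem_image_of_mem f (Finset.mem_univ x)),
    ← Finset.sum_fiberwise_of_maps_to (s := Finset.univ.filter (· ∈ MulAction.fixedPoints P X))
    (t := Finset.univ.image f) (g := f)
    (fun x _ => Finset.mem_image_of_mem f (Finset.mem_univ x))]
  refine Finset.sum_congr rfl fun c _ => ?_
  rw [Finset.sum_congr rfl (g := fun _ => c) (fun x hx => (Finset.mem_filter.1 hx).2),
    Finset.sum_congr (s₁ := Finset.filter _ (Finset.filter _ _)) rfl (g := fun _ => c)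
      (fun x hx => (Finset.mem_filter.1 hx).2),
    Finset.sum_const, Finset.sum_const, nsmul_eq_mul, nsmul_eq_mul]
  congr 1
  rw [CharP.natCast_eq_natCast k p]
  let Y : SubMulAction P X := ⟨{x | f x = c}, fun g x hx => by
    change f (g • x) = c
    rw [hf]
    exact hx⟩
  have h1 := hP.card_modEq_card_fixedPoints Y
  have h2 : Nat.card Y = (Finset.univ.filter (fun x => f x = c)).card := by
    rw [← Fintype.card_subtype, Nat.card_eq_fintype_card]
    rfl
  have h3 : Nat.card (MulAction.fixedPoints P Y) =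
      ((Finset.univ.filter (· ∈ MulAction.fixedPoints P X)).filter (fun x => f x = c)).card := by
    rw [Finset.filter_filter, ← Fintype.card_subtype, ← Nat.card_eq_fintype_card]
    refine Nat.card_congr
      { toFun := fun y => ⟨y.1.1, fun g => congrArg Subtype.val (y.2 g), y.1.2⟩
        invFun := fun x => ⟨⟨x.1, x.2.2⟩, fun g => Subtype.ext (x.2.1 g)⟩
        left_inv := fun y => rfl
        right_inv := fun x => rfl }
  rwa [h2, h3] at h1

end Sum

section Aug

variable {k : Type*} [Field k] {G : Type*} [Group G]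

/-- The augmentation kG → k. -/
noncomputable def aug : MonoidAlgebra k G →ₐ[k] k := MonoidAlgebra.lift k k G 1

@[simp] theorem aug_single (g : G) (r : k) : aug (MonoidAlgebra.single g r) = r := by
  simp [aug]

theorem aug_eq_sum (z : MonoidAlgebra k G) : aug z = z.coeff.sum (fun _ a => a) := by
  rw [aug, MonoidAlgebra.lift_apply]
  simp

theorem aug_eq_sum' [Fintype G] (z : MonoidAlgebra k G) : aug z = ∑ g, z.coeff g := by
  rw [aug_eq_sum, Finsupp.sum_fintype _ _ (fun _ => rfl)]

theorem ker_aug_maximal : (RingHom.ker (aug : MonoidAlgebra k G →ₐ[k] k)).IsMaximal := by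
  rw [Ideal.isMaximal_iff]
  refine ⟨fun h => by simp [RingHom.mem_ker] at h, fun I a hI ha haI => ?_⟩
  rw [RingHom.mem_ker] at ha
  have h1 : (1 : MonoidAlgebra k G) = (1 - algebraMap k _ (aug a)⁻¹ * a) +
      algebraMap k _ (aug a)⁻¹ * a := by abel
  rw [h1]
  refine I.add_mem (hI ?_) (I.mul_mem_left _ haI)
  rw [RingHom.mem_ker, map_sub, map_mul, AlgHom.commutes, map_one]
  simp [ha]

/-- If G acts trivially on x then every element of kG acts through its augmentation. -/
theorem smul_of_fixed {M : Type*} [AddCommGroup M] [Module (MonoidAlgebra k G) M] (x : M)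
    (hx : ∀ g : G, MonoidAlgebra.single g (1 : k) • x = x) (a : MonoidAlgebra k G) :
    a • x = algebraMap k (MonoidAlgebra k G) (aug a) • x := by
  induction a using MonoidAlgebra.induction_linear with
  | zero => simp
  | add a b ha hb => rw [add_smul, ha, hb, map_add, map_add, add_smul]
  | single g r =>
    have : MonoidAlgebra.single g r = algebraMap k (MonoidAlgebra k G) r *
        MonoidAlgebra.single g 1 := by
      simp
    rw [aug_single, this, mul_smul, hx]

theorem eq_ker_aug {m : Ideal (MonoidAlgebra k G)} (hm : m.IsMaximal)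
    (h : ∀ (g : G) (x : MonoidAlgebra k G ⧸ m), MonoidAlgebra.single g (1 : k) • x = x) :
    m = RingHom.ker (aug : MonoidAlgebra k G →ₐ[k] k) := by
  symm
  refine ker_aug_maximal.eq_of_le hm.ne_top fun a ha => ?_
  have h1 := smul_of_fixed (Submodule.Quotient.mk (p := m) 1) (fun g => h g _) a
  rw [RingHom.mem_ker] at ha
  rw [ha, map_zero, zero_smul, ← Submodule.Quotient.mk_smul, smul_eq_mul, mul_one,
    Submodule.Quotient.mk_eq_zero] at h1
  exact h1

theorem smul_ker_aug (a : MonoidAlgebra k G)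
    (x : MonoidAlgebra k G ⧸ RingHom.ker (aug : MonoidAlgebra k G →ₐ[k] k)) :
    a • x = algebraMap k (MonoidAlgebra k G) (aug a) • x := by
  obtain ⟨y, rfl⟩ := Submodule.Quotient.mk_surjective _ x
  rw [← Submodule.Quotient.mk_smul, ← Submodule.Quotient.mk_smul, Submodule.Quotient.eq,
    RingHom.mem_ker]
  simp [map_sub]

/-- The trivial module, as a member of the principal block. -/
noncomputable def trivSimple {B : MonoidAlgebra k G} (h1 : aug B = 1) : SimpleIn B :=
  ⟨RingHom.ker (aug : MonoidAlgebra k G →ₐ[k] k), ker_aug_maximal, fun x => by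
    rw [smul_ker_aug, h1, map_one, one_smul]⟩

theorem numSimple_eq_one_iff {B : MonoidAlgebra k G} (h1 : aug B = 1) :
    numSimple B = 1 ↔ ∀ m : SimpleIn B, m.1 = RingHom.ker (aug : MonoidAlgebra k G →ₐ[k] k) := by
  rw [numSimple, Nat.card_eq_one_iff_unique]
  constructor
  · rintro ⟨hs, -⟩ m
    apply eq_ker_aug m.2.1
    have h2 : (Quotient.mk (simpleSetoid B) m) = Quotient.mk (simpleSetoid B) (trivSimple h1) :=
      Subsingleton.elim _ _
    obtain ⟨e⟩ := Quotient.exact h2
    let e' : (MonoidAlgebra k G ⧸ m.1) ≃ₗ[MonoidAlgebra k G]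
      (MonoidAlgebra k G ⧸ RingHom.ker (aug : MonoidAlgebra k G →ₐ[k] k)) := e
    intro g x
    apply e'.injective
    rw [map_smul, smul_ker_aug, aug_single, map_one, one_smul]
  · intro h
    refine ⟨⟨fun a b => ?_⟩, ⟨Quotient.mk _ (trivSimple h1)⟩⟩
    induction a using Quotient.inductionOn with | _ a
    induction b using Quotient.inductionOn with | _ b
    have : a = b := Subtype.ext ((h a).trans (h b).symm)
    rw [this]

theorem exists_fitting {R : Type*} [CommRing R] [IsArtinianRing R] (w : R) :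
    ∃ (e c : R) (N : ℕ), e * e = e ∧ e = w * c ∧ w ^ N * e = w ^ N := by
  obtain ⟨n, y, hy⟩ := IsArtinian.exists_pow_succ_smul_dvd w (1 : R)
  rw [smul_eq_mul, smul_eq_mul, mul_one, Nat.succ_eq_add_one] at hy
  have hy1 : w ^ (n + 1 + 1) * y = w ^ (n + 1) := by
    calc w ^ (n + 1 + 1) * y = w * (w ^ (n + 1) * y) := by ring
      _ = w ^ (n + 1) := by rw [hy]; ring
  have hj : ∀ j, w ^ (n + 1 + j) * y ^ j = w ^ (n + 1) := by
    intro j
    induction j with
    | zero => simp
    | succ j ih =>
      calc w ^ (n + 1 + (j + 1)) * y ^ (j + 1) = (w ^ (n + 1 + j) * y ^ j) * (w * y) := by ring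
        _ = w ^ (n + 1 + 1) * y := by rw [ih]; ring
        _ = w ^ (n + 1) := hy1
  refine ⟨w ^ (n + 1) * y ^ (n + 1), w ^ n * y ^ (n + 1), n + 1, ?_, by ring, ?_⟩
  · calc w ^ (n + 1) * y ^ (n + 1) * (w ^ (n + 1) * y ^ (n + 1))
        = (w ^ (n + 1 + (n + 1)) * y ^ (n + 1)) * y ^ (n + 1) := by ring
      _ = w ^ (n + 1) * y ^ (n + 1) := by rw [hj]
  · calc w ^ (n + 1) * (w ^ (n + 1) * y ^ (n + 1))
        = w ^ (n + 1 + (n + 1)) * y ^ (n + 1) := by ring
      _ = w ^ (n + 1) := hj _

theorem idem_split {R : Type*} [CommRing R] {b e : R} (hb : b * b = b) (he : e * e = e) :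
    (b * e) * (b * e) = b * e ∧ (b * (1 - e)) * (b * (1 - e)) = b * (1 - e) ∧
      (b * e) * (b * (1 - e)) = 0 ∧ b * e + b * (1 - e) = b := by
  refine ⟨?_, ?_, ?_, by ring⟩
  · calc b * e * (b * e) = (b * b) * (e * e) := by ring
      _ = b * e := by rw [hb, he]
  · calc b * (1 - e) * (b * (1 - e)) = (b * b) * (1 - 2 * e + e * e) := by ring
      _ = b * (1 - e) := by rw [hb, he]; ring
  · calc b * e * (b * (1 - e)) = (b * b) * (e - e * e) := by ring
      _ = 0 := by rw [he]; ring

/-- A central element of augmentation zero acts nilpotently on the principal block. -/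
theorem exists_pow_mul_eq_zero [Finite G] {B : MonoidAlgebra k G} (hB : IsBlock k G B)
    (h1 : aug B = 1) {z : MonoidAlgebra k G} (hz : z ∈ Set.center (MonoidAlgebra k G))
    (hz0 : aug z = 0) : ∃ n : ℕ, (z * B) ^ n = 0 := by
  obtain ⟨hBc, hB0, hBB, hprim⟩ := hB
  let Z := Subalgebra.center k (MonoidAlgebra k G)
  have : FiniteDimensional k (MonoidAlgebra k G) := inferInstance
  have : FiniteDimensional k Z := inferInstance
  have : IsArtinianRing Z := isArtinian_of_tower k inferInstance
  let b : Z := ⟨B, hBc⟩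
  let w : Z := ⟨z, hz⟩ * b
  have hb : b * b = b := Subtype.ext hBB
  have hw0 : aug (w : MonoidAlgebra k G) = 0 := by
    change aug (z * B) = 0
    rw [map_mul, hz0, zero_mul]
  obtain ⟨e, c, N, hee, hec, hwe⟩ := exists_fitting w
  obtain ⟨q1, q2, q3, q4⟩ := idem_split hb hee
  have hcoe : ∀ a : Z, (a : MonoidAlgebra k G) ∈ Set.center (MonoidAlgebra k G) := fun a => a.2
  have haug : ∀ a c : Z, aug ((a * c : Z) : MonoidAlgebra k G) =
      aug (a : MonoidAlgebra k G) * aug (c : MonoidAlgebra k G) := fun a c => by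
    rw [Subalgebra.coe_mul, map_mul]
  rcases hprim ((b * e : Z) : MonoidAlgebra k G) (hcoe _) ((b * (1 - e) : Z) : MonoidAlgebra k G)
      (hcoe _) (congrArg Subtype.val q1) (congrArg Subtype.val q2) (congrArg Subtype.val q3)
      (congrArg Subtype.val q4) with h | h
  · refine ⟨N, ?_⟩
    have h2 : b * e = 0 := Subtype.ext h
    have h4 : w * e = 0 := by
      simp only [w]
      rw [mul_assoc, h2, mul_zero]
    have h3 : w ^ (N + 1) = 0 := by
      rw [pow_succ', ← hwe, mul_left_comm, h4, mul_zero]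
    have h5 : w ^ N = 0 := by
      rw [← hwe, hec, ← mul_assoc, ← pow_succ, h3, zero_mul]
    exact congrArg Subtype.val h5
  · exfalso
    have h2 : b * (1 - e) = 0 := Subtype.ext h
    have h3 : b = b * e := q4.symm.trans ((congrArg (fun t => b * e + t) h2).trans (add_zero _))
    have h4 : aug (b : MonoidAlgebra k G) = 0 := by
      rw [h3, haug, hec, haug, hw0, zero_mul, mul_zero]
    have h5 : aug (b : MonoidAlgebra k G) = 1 := h1
    exact zero_ne_one (h4.symm.trans h5)

theorem isSimple_of_maximal {A : Type*} [Ring A] {m : Ideal A} (hm : m.IsMaximal) :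
    IsSimpleModule A (A ⧸ m) := isSimpleModule_iff_isCoatom.2 hm.out

/-- A central element either kills a simple module or is injective on it. -/
theorem central_zero_or_injective {A : Type*} [Ring A] {M : Type*} [AddCommGroup M] [Module A M]
    [hM : IsSimpleModule A M] {z : A} (hz : z ∈ Set.center A) :
    (∀ x : M, z • x = 0) ∨ ∀ x : M, z • x = 0 → x = 0 := by
  let K : Submodule A M :=
    { carrier := {x | z • x = 0}
      add_mem' := fun {a b} ha hb => by
        change z • (a + b) = 0
        rw [smul_add, show z • a = 0 from ha, show z • b = 0 from hb, add_zero]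
      zero_mem' := smul_zero z
      smul_mem' := fun c x hx => by
        change z • (c • x) = 0
        rw [smul_smul, ((Set.mem_center_iff.1 hz).comm c).eq, mul_smul,
          show z • x = 0 from hx, smul_zero] }
  rcases eq_bot_or_eq_top K with h | h
  · right
    intro x hx
    have : x ∈ K := hx
    rwa [h, Submodule.mem_bot] at this
  · left
    intro x
    have : x ∈ K := by rw [h]; trivial
    exact this

/-- The centre acts through the augmentation on the simple modules of the principal block. -/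
theorem central_smul [Finite G] {B : MonoidAlgebra k G} (hB : IsBlock k G B)
    (h1 : aug B = 1) (m : SimpleIn B) {z : MonoidAlgebra k G}
    (hz : z ∈ Set.center (MonoidAlgebra k G)) (x : MonoidAlgebra k G ⧸ m.1) :
    z • x = algebraMap k (MonoidAlgebra k G) (aug z) • x := by
  have hs := isSimple_of_maximal m.2.1
  have hac : ∀ c : k, algebraMap k (MonoidAlgebra k G) c ∈ Set.center (MonoidAlgebra k G) :=
    fun c => (Subalgebra.center k (MonoidAlgebra k G)).algebraMap_mem c
  let y := z - algebraMap k (MonoidAlgebra k G) (aug z)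
  have hy : y ∈ Set.center (MonoidAlgebra k G) :=
    (Subalgebra.center k (MonoidAlgebra k G)).sub_mem hz (hac _)
  have hy0 : aug y = 0 := by
    simp only [y, map_sub, AlgHom.commutes]
    simp
  obtain ⟨n, hn⟩ := exists_pow_mul_eq_zero hB h1 hy hy0
  have hyB : y * B ∈ Set.center (MonoidAlgebra k G) :=
    (Subalgebra.center k (MonoidAlgebra k G)).mul_mem hy hB.1
  have h2 : ∀ x : MonoidAlgebra k G ⧸ m.1, (y * B) • x = 0 := by
    rcases central_zero_or_injective (M := MonoidAlgebra k G ⧸ m.1) hyB with h | h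
    · exact h
    · exfalso
      have h3 : ∀ (j : ℕ) (x : MonoidAlgebra k G ⧸ m.1), (y * B) ^ j • x = 0 → x = 0 := by
        intro j
        induction j with
        | zero => intro x hx; simpa using hx
        | succ j ih =>
          intro x hx
          rw [pow_succ, mul_smul] at hx
          exact h x (ih _ hx)
      have hnt : Nontrivial (MonoidAlgebra k G ⧸ m.1) :=
        IsSimpleModule.nontrivial (MonoidAlgebra k G) _
      obtain ⟨x, hx⟩ := exists_ne (0 : MonoidAlgebra k G ⧸ m.1)
      exact hx (h3 n x (by rw [hn, zero_smul]))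
  have h3 : y • x = 0 := by
    have := h2 x
    rwa [mul_smul, m.2.2] at this
  simp only [y, sub_smul] at h3
  exact sub_eq_zero.1 h3

end Aug

end Vale.Agent.P179
end
end

section

section

/-! The principal block has a single simple module iff the group is p-nilpotent. -/

namespace Vale.Agent.P179

open Subgroup

variable {k : Type*} [Field k] {G : Type*} [Group G]

theorem single_mul_sum_subgroup (L : Subgroup G) [Fintype L] {l : G} (hl : l ∈ L) :
    MonoidAlgebra.single l (1 : k) * ∑ x : L, MonoidAlgebra.single (x : G) (1 : k) =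
      ∑ x : L, MonoidAlgebra.single (x : G) (1 : k) := by
  rw [Finset.mul_sum]
  rw [← Equiv.sum_comp (Equiv.mulLeft (⟨l, hl⟩ : L))
    (fun x : L => MonoidAlgebra.single (x : G) (1 : k))]
  refine Finset.sum_congr rfl fun x _ => ?_
  simp

theorem mem_center_iff_single {z : MonoidAlgebra k G} :
    z ∈ Set.center (MonoidAlgebra k G) ↔
      ∀ g, MonoidAlgebra.single g (1 : k) * z = z * MonoidAlgebra.single g (1 : k) := by
  constructor
  · intro h g
    exact (((Set.mem_center_iff.1 h).comm _).eq).symm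
  · intro h
    apply Semigroup.mem_center_iff.2
    intro a
    induction a using MonoidAlgebra.induction_linear with
    | zero => simp
    | add a b ha hb => rw [add_mul, ha, hb, mul_add]
    | single g r =>
      have : MonoidAlgebra.single g r = algebraMap k (MonoidAlgebra k G) r *
          MonoidAlgebra.single g 1 := by
        simp
      rw [this, mul_assoc, h, ← mul_assoc, ← mul_assoc, Algebra.commutes]

theorem sum_subgroup_mem_center (L : Subgroup G) [L.Normal] [Fintype L] :
    ∑ x : L, MonoidAlgebra.single (x : G) (1 : k) ∈ Set.center (MonoidAlgebra k G) := by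
  rw [mem_center_iff_single]
  intro g
  rw [Finset.mul_sum, Finset.sum_mul]
  rw [← Equiv.sum_comp (MulAut.conjNormal (H := L) g).toEquiv
    (fun x : L => MonoidAlgebra.single (x : G) (1 : k) * MonoidAlgebra.single g (1 : k))]
  refine Finset.sum_congr rfl fun x _ => ?_
  simp

theorem aug_sum_subgroup (L : Subgroup G) [Fintype L] :
    aug (∑ x : L, MonoidAlgebra.single (x : G) (1 : k)) = (Nat.card L : k) := by
  rw [map_sum]
  simp

/-- A finite p-group acting on a nonzero module in characteristic p has a nonzero fixed point. -/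
theorem exists_fixed {p : ℕ} [Fact p.Prime] [CharP k p] [Finite G] (P : Subgroup G)
    (hP : IsPGroup p P) {M : Type*} [AddCommGroup M] [Module (MonoidAlgebra k G) M] (x : M)
    (hx : x ≠ 0) : ∃ y : M, y ≠ 0 ∧ ∀ g ∈ P, MonoidAlgebra.single g (1 : k) • y = y := by
  classical
  let O : Set M := Set.range (fun g : P => MonoidAlgebra.single (g : G) (1 : k) • x)
  let S : AddSubgroup M := AddSubgroup.closure O
  have hp0 : ∀ y : M, p • y = 0 := by
    intro y
    have h1 : ((p : ℕ) : MonoidAlgebra k G) • y = p • y := Nat.cast_smul_eq_nsmul _ _ _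
    rw [← h1]
    have h2 : ((p : ℕ) : MonoidAlgebra k G) = 0 := by
      rw [MonoidAlgebra.natCast_def, CharP.cast_eq_zero, MonoidAlgebra.single_zero]
    rw [h2, zero_smul]
  have hfin : Finite S := by
    have hfg : AddGroup.FG S := by
      rw [AddGroup.fg_iff_addSubgroup_fg, AddSubgroup.fg_iff]
      exact ⟨O, rfl, Set.finite_range _⟩
    apply AddCommGroup.finite_of_fg_isAddTorsion
    intro s
    exact isOfFinAddOrder_iff_nsmul_eq_zero.2 ⟨p, (Fact.out : p.Prime).pos, Subtype.ext (hp0 s)⟩
  have hst : ∀ g ∈ P, ∀ s ∈ S, MonoidAlgebra.single g (1 : k) • s ∈ S := by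
    intro g hg s hs
    induction hs using AddSubgroup.closure_induction with
    | mem s hs =>
      obtain ⟨h, rfl⟩ := hs
      apply AddSubgroup.subset_closure
      exact ⟨⟨g, hg⟩ * h, by simp [smul_smul]⟩
    | zero => rw [smul_zero]; exact zero_mem _
    | add s t _ _ hs ht => rw [smul_add]; exact add_mem hs ht
    | neg s _ hs => rw [smul_neg]; exact neg_mem hs
  let act : MulAction P S :=
    { smul := fun g s => ⟨MonoidAlgebra.single (g : G) (1 : k) • s.1, hst g g.2 s s.2⟩
      one_smul := fun s => Subtype.ext (by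
        change MonoidAlgebra.single ((1 : P) : G) (1 : k) • s.1 = s.1
        rw [OneMemClass.coe_one, ← MonoidAlgebra.one_def, one_smul])
      mul_smul := fun g h s => Subtype.ext (by
        change MonoidAlgebra.single ((g * h : P) : G) (1 : k) • s.1 =
          MonoidAlgebra.single (g : G) (1 : k) • MonoidAlgebra.single (h : G) (1 : k) • s.1
        rw [smul_smul, MonoidAlgebra.single_mul_single, Subgroup.coe_mul, mul_one]) }
  have hxS : x ∈ S := AddSubgroup.subset_closure ⟨1, by
    change MonoidAlgebra.single ((1 : P) : G) (1 : k) • x = x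
    rw [OneMemClass.coe_one, ← MonoidAlgebra.one_def, one_smul]⟩
  have hdvd : p ∣ Nat.card S := by
    have h1 : addOrderOf (⟨x, hxS⟩ : S) = p :=
      addOrderOf_eq_prime (Subtype.ext (hp0 x)) (fun h => hx (congrArg Subtype.val h))
    rw [← h1]
    exact addOrderOf_dvd_natCard _
  obtain ⟨b, hb, hb0⟩ := hP.exists_fixed_point_of_prime_dvd_card_of_fixed_point S hdvd (a := 0)
    (fun g => Subtype.ext (smul_zero _))
  exact ⟨b, fun h => hb0 (Subtype.ext h.symm), fun g hg => congrArg Subtype.val (hb ⟨g, hg⟩)⟩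

/-- If G is p-nilpotent then the trivial module is the only simple module in the principal
block. -/
theorem eq_ker_of_pNilpotent {p : ℕ} [Fact p.Prime] [CharP k p] [Finite G]
    {B : MonoidAlgebra k G} (hB : IsBlock k G B) (h1 : aug B = 1) {L : Subgroup G}
    (hLn : L.Normal) (hLp : ¬ p ∣ Nat.card L) (hL : ∀ g : G, ∃ n : ℕ, g ^ p ^ n ∈ L)
    (m : SimpleIn B) : m.1 = RingHom.ker (aug : MonoidAlgebra k G →ₐ[k] k) := by
  classical
  have := Fintype.ofFinite L
  have hs := isSimple_of_maximal m.2.1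
  have hcard : (Nat.card L : k) ≠ 0 := by
    rwa [Ne, CharP.cast_eq_zero_iff k p]
  have hLtriv : ∀ l ∈ L, ∀ x : MonoidAlgebra k G ⧸ m.1, MonoidAlgebra.single l (1 : k) • x = x := by
    intro l hl x
    have h2 := central_smul hB h1 m (sum_subgroup_mem_center (k := k) L)
    rw [aug_sum_subgroup] at h2
    have h3 : algebraMap k (MonoidAlgebra k G) (Nat.card L) • MonoidAlgebra.single l (1 : k) • x =
        algebraMap k (MonoidAlgebra k G) (Nat.card L) • x := by
      rw [← h2 x, ← h2 (MonoidAlgebra.single l (1 : k) • x), smul_smul]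
      congr 1
      have h4 := mem_center_iff_single.1 (sum_subgroup_mem_center (k := k) L) l
      rw [← h4, single_mul_sum_subgroup L hl]
    have h5 : ∀ t : MonoidAlgebra k G ⧸ m.1, algebraMap k (MonoidAlgebra k G) (Nat.card L : k)⁻¹ •
        algebraMap k (MonoidAlgebra k G) (Nat.card L : k) • t = t := by
      intro t
      rw [smul_smul, ← map_mul, inv_mul_cancel₀ hcard, map_one, one_smul]
    rw [← h5 (MonoidAlgebra.single l (1 : k) • x), h3, h5]
  have hnt : Nontrivial (MonoidAlgebra k G ⧸ m.1) :=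
    IsSimpleModule.nontrivial (MonoidAlgebra k G) _
  obtain ⟨x, hx⟩ := exists_ne (0 : MonoidAlgebra k G ⧸ m.1)
  obtain ⟨P⟩ : Nonempty (Sylow p G) := inferInstance
  obtain ⟨y, hy0, hy⟩ := exists_fixed (k := k) (P : Subgroup G) P.isPGroup' x hx
  have htop := sup_sylow_eq_top L hL P
  let St : Subgroup G :=
    { carrier := {g | MonoidAlgebra.single g (1 : k) • y = y}
      mul_mem' := fun {a b} ha hb => by
        change MonoidAlgebra.single (a * b) (1 : k) • y = y
        have : MonoidAlgebra.single (a * b) (1 : k) =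
            MonoidAlgebra.single a (1 : k) * MonoidAlgebra.single b (1 : k) := by simp
        rw [this, mul_smul, show _ • y = y from hb, show _ • y = y from ha]
      one_mem' := by
        change MonoidAlgebra.single (1 : G) (1 : k) • y = y
        rw [← MonoidAlgebra.one_def, one_smul]
      inv_mem' := fun {a} ha => by
        change MonoidAlgebra.single a⁻¹ (1 : k) • y = y
        have ha' : MonoidAlgebra.single a (1 : k) • y = y := ha
        conv_lhs => rw [← ha']
        rw [smul_smul]
        simp [← MonoidAlgebra.one_def] }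
  have hall : ∀ g : G, MonoidAlgebra.single g (1 : k) • y = y := by
    intro g
    have h2 : (⊤ : Subgroup G) ≤ St := by
      rw [← htop]
      exact sup_le (fun l hl => hLtriv l hl y) (fun u hu => hy u hu)
    exact h2 (mem_top g)
  apply eq_ker_aug m.2.1
  intro g x
  have hspan : Submodule.span (MonoidAlgebra k G) {y} = ⊤ := by
    rcases eq_bot_or_eq_top (Submodule.span (MonoidAlgebra k G) {y}) with h | h
    · exact absurd (Submodule.span_singleton_eq_bot.1 h) hy0
    · exact h
  have hx : x ∈ Submodule.span (MonoidAlgebra k G) {y} := by rw [hspan]; trivial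
  obtain ⟨a, rfl⟩ := Submodule.mem_span_singleton.1 hx
  rw [smul_of_fixed y hall a, smul_smul, ← Algebra.commutes, mul_smul, hall]

/-- If the trivial module is the only simple module in the principal block then G is
p-nilpotent. -/
theorem pNilpotent_of_eq_ker {p : ℕ} [Fact p.Prime] [CharP k p] [Finite G]
    {B : MonoidAlgebra k G} (hB : IsBlock k G B) (h1 : aug B = 1)
    (hall : ∀ m : SimpleIn B, m.1 = RingHom.ker (aug : MonoidAlgebra k G →ₐ[k] k)) :
    ∃ L : Subgroup G, L.Normal ∧ ¬ p ∣ Nat.card L ∧ ∀ g : G, ∃ n : ℕ, g ^ p ^ n ∈ L := by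
  classical
  have := Fintype.ofFinite G
  have hpp : p.Prime := Fact.out
  have hcomm : ∀ a : MonoidAlgebra k G, Commute B a := fun a => (Set.mem_center_iff.1 hB.1).comm a
  have hcp : CharP (MonoidAlgebra k G) p :=
    charP_of_injective_algebraMap (FaithfulSMul.algebraMap_injective k (MonoidAlgebra k G)) p
  have hart : IsArtinianRing (MonoidAlgebra k G) := isArtinian_of_tower k inferInstance
  obtain ⟨n, hn⟩ := IsArtinianRing.isNilpotent_jacobson_bot (R := MonoidAlgebra k G)
  have hmem : ∀ g : G, (MonoidAlgebra.single g (1 : k) - 1) * B ∈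
      Ideal.jacobson (⊥ : Ideal (MonoidAlgebra k G)) := by
    intro g
    rw [Ideal.jacobson, Submodule.mem_sInf]
    rintro m ⟨-, hm⟩
    have hs := isSimple_of_maximal hm
    rcases central_zero_or_injective (M := MonoidAlgebra k G ⧸ m) hB.1 with h | h
    · have h2 := h (Submodule.Quotient.mk 1)
      rw [← Submodule.Quotient.mk_smul, smul_eq_mul, mul_one, Submodule.Quotient.mk_eq_zero] at h2
      exact Ideal.mul_mem_left m _ h2
    · have h2 : ∀ x : MonoidAlgebra k G ⧸ m, B • x = x := by
        intro x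
        apply sub_eq_zero.1
        apply h
        rw [smul_sub, smul_smul, hB.2.2.1, sub_self]
      have h3 := hall ⟨m, hm, h2⟩
      change m = _ at h3
      rw [h3, RingHom.mem_ker, map_mul, map_sub, aug_single, map_one, sub_self, zero_mul]
  have hnil : ∀ g : G, ((MonoidAlgebra.single g (1 : k) - 1) * B) ^ n = 0 := by
    intro g
    have := Ideal.pow_mem_pow (hmem g) n
    rw [hn] at this
    simpa using this
  have hfix : ∀ g : G, ∃ j : ℕ, MonoidAlgebra.single (g ^ p ^ j) (1 : k) * B = B := by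
    intro g
    obtain ⟨j, hj⟩ : ∃ j : ℕ, n ≤ p ^ j := ⟨n, (Nat.lt_pow_self hpp.one_lt).le⟩
    refine ⟨j, ?_⟩
    have h2 : ((MonoidAlgebra.single g (1 : k) - 1) * B) ^ p ^ j = 0 := by
      rw [← Nat.sub_add_cancel hj, pow_add, hnil, mul_zero]
    have h3 : (MonoidAlgebra.single g (1 : k) - 1) ^ p ^ j * B = 0 := by
      have hBp : ∀ i : ℕ, 0 < i → B ^ i = B := by
        intro i hi
        induction i, hi using Nat.le_induction with
        | base => simp
        | succ i _ ih => rw [pow_succ, ih, hB.2.2.1]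
      rw [← hBp (p ^ j) (pow_pos hpp.pos j), ← (hcomm _).symm.mul_pow, h2]
    rw [sub_pow_char_pow_of_commute _ _ (Commute.one_right _), one_pow, MonoidAlgebra.single_pow,
      one_pow, sub_mul, one_mul, sub_eq_zero] at h3
    exact h3
  let L : Subgroup G :=
    { carrier := {g | MonoidAlgebra.single g (1 : k) * B = B}
      mul_mem' := fun {a b} ha hb => by
        change MonoidAlgebra.single (a * b) (1 : k) * B = B
        have : MonoidAlgebra.single (a * b) (1 : k) =
            MonoidAlgebra.single a (1 : k) * MonoidAlgebra.single b (1 : k) := by simp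
        rw [this, mul_assoc, show _ * B = B from hb, show _ * B = B from ha]
      one_mem' := by
        change MonoidAlgebra.single (1 : G) (1 : k) * B = B
        rw [← MonoidAlgebra.one_def, one_mul]
      inv_mem' := fun {a} ha => by
        change MonoidAlgebra.single a⁻¹ (1 : k) * B = B
        have ha' : MonoidAlgebra.single a (1 : k) * B = B := ha
        conv_lhs => rw [← ha']
        rw [← mul_assoc]
        simp [← MonoidAlgebra.one_def] }
  refine ⟨L, ⟨fun l hl g => ?_⟩, fun hdvd => ?_, hfix⟩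
  · have hl' : MonoidAlgebra.single l (1 : k) * B = B := hl
    change MonoidAlgebra.single (g * l * g⁻¹) (1 : k) * B = B
    have : MonoidAlgebra.single (g * l * g⁻¹) (1 : k) = MonoidAlgebra.single g (1 : k) *
        MonoidAlgebra.single l (1 : k) * MonoidAlgebra.single g⁻¹ (1 : k) := by simp
    rw [this, mul_assoc, ← (hcomm _).eq, ← mul_assoc, mul_assoc _ _ B, hl', ← (hcomm _).eq,
      mul_assoc]
    simp [← MonoidAlgebra.one_def]
  · obtain ⟨u, hu⟩ := exists_prime_orderOf_dvd_card' p hdvd
    have huL : MonoidAlgebra.single (u : G) (1 : k) * B = B := u.2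
    have huG : orderOf (u : G) = p := by rw [Subgroup.orderOf_coe, hu]
    have hcoef : ∀ g : G, B.coeff ((u : G) * g) = B.coeff g := by
      intro g
      conv_lhs => rw [← huL]
      rw [MonoidAlgebra.coeff_single_mul_apply]
      simp
    let U := Subgroup.zpowers (u : G)
    have hU : IsPGroup p U := by
      apply IsPGroup.of_card (n := 1)
      rw [Nat.card_zpowers, huG, pow_one]
    have hsum := sum_eq_sum_fixed hU (X := G) (fun g => B.coeff g) (fun w g => by
      obtain ⟨w, hw⟩ := w
      obtain ⟨i, rfl⟩ := Subgroup.mem_zpowers_iff.1 hw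
      change B.coeff ((u : G) ^ i * g) = B.coeff g
      have hz : ∀ i : ℕ, ∀ g, B.coeff ((u : G) ^ i * g) = B.coeff g := by
        intro i
        induction i with
        | zero => simp
        | succ i ih => intro g; rw [pow_succ, mul_assoc, ih, hcoef]
      obtain ⟨i, hi | hi⟩ := i.eq_nat_or_neg
      · rw [hi, zpow_natCast, hz]
      · rw [hi, zpow_neg, zpow_natCast]
        conv_rhs => rw [← mul_inv_cancel_left ((u : G) ^ i) g, hz])
    have hempty : ∀ g : G, g ∉ MulAction.fixedPoints U G := by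
      intro g hg
      have h2 := hg ⟨u, Subgroup.mem_zpowers _⟩
      change (u : G) * g = g at h2
      have h3 : (u : G) = 1 := by simpa using h2
      rw [h3, orderOf_one] at huG
      exact hpp.one_lt.ne huG
    have h2 : aug B = 0 := by
      rw [aug_eq_sum', hsum]
      apply Finset.sum_eq_zero
      intro g hg
      exact absurd (Finset.mem_filter.1 hg).2 (hempty g)
    rw [h1] at h2
    exact one_ne_zero h2

end Vale.Agent.P179
end
end

section

section

/-! More on complex representations: the predicate IsIrrChar, irreducible subrepresentations of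
the regular representation, and vanishing of characters. -/

namespace Vale.Agent.P179

open Representation Module

section

variable {Γ : Type*} [Group Γ] {V : Type*} [AddCommGroup V] [Module ℂ V]

/-- Transport of a representation along a linear equivalence. -/
noncomputable def transport {W : Type*} [AddCommGroup W] [Module ℂ W] (σ : Representation ℂ Γ V)
    (e : V ≃ₗ[ℂ] W) : Representation ℂ Γ W where
  toFun g := e.conj (σ g)
  map_one' := by
    ext w
    simp [LinearEquiv.conj_apply]
  map_mul' g h := by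
    ext w
    simp [LinearEquiv.conj_apply]

theorem transport_apply {W : Type*} [AddCommGroup W] [Module ℂ W] (σ : Representation ℂ Γ V)
    (e : V ≃ₗ[ℂ] W) (g : Γ) (w : W) : transport σ e g w = e (σ g (e.symm w)) := rfl

theorem exists_transport {H : Type*} [Group H] (σ : Representation ℂ H V) [h : σ.IsIrreducible]
    [FiniteDimensional ℂ V] : ∃ (n : ℕ) (e : V ≃ₗ[ℂ] (Fin n → ℂ)),
      (transport σ e).IsIrreducible ∧ (transport σ e).character = σ.character := by
  have hV := irr_nontrivial σ
  let e : V ≃ₗ[ℂ] (Fin (finrank ℂ V) → ℂ) := LinearEquiv.ofFinrankEq _ _ (by simp)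
  refine ⟨finrank ℂ V, e, ?_, ?_⟩
  · have : Nontrivial (Fin (finrank ℂ V) → ℂ) := e.symm.toEquiv.nontrivial
    apply irr_of_forall
    intro W hW
    rcases irr_bot_or_top σ (W.comap (e : V →ₗ[ℂ] _)) (fun g v hv => by
      rw [Submodule.mem_comap] at hv ⊢
      have := hW g _ hv
      rw [transport_apply] at this
      simpa using this) with h | h
    · left
      rw [eq_bot_iff]
      intro w hw
      have h1 : e.symm w ∈ W.comap (e : V →ₗ[ℂ] _) := by
        rw [Submodule.mem_comap]
        simpa using hw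
      rw [h] at h1
      simpa using h1
    · right
      rw [eq_top_iff]
      intro w _
      have h1 : e.symm w ∈ W.comap (e : V →ₗ[ℂ] _) := by
        rw [h]; trivial
      rw [Submodule.mem_comap] at h1
      simpa using h1
  · ext g
    exact LinearMap.trace_conj' (σ g) e

theorem isIrrChar_of_rep {H : Type*} [Group H] (σ : Representation ℂ H V) [h : σ.IsIrreducible]
    [FiniteDimensional ℂ V] : IsIrrChar H σ.character := by
  obtain ⟨n, e, h1, h2⟩ := exists_transport σ
  exact ⟨n, _, h1, h2⟩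

theorem irr_comp {H : Type*} [Group H] (σ : Representation ℂ H V) [h : σ.IsIrreducible]
    (π : Γ →* H) (hπ : Function.Surjective π) :
    Representation.IsIrreducible (σ.comp π : Representation ℂ Γ V) := by
  have hV := irr_nontrivial σ
  apply irr_of_forall
  intro W hW
  apply irr_bot_or_top σ
  intro g v hv
  obtain ⟨x, rfl⟩ := hπ g
  exact hW x v hv

/-- Every nonzero invariant subspace contains an irreducible one. -/
theorem exists_irr_sub (σ : Representation ℂ Γ V) [FiniteDimensional ℂ V] (J : Submodule ℂ V)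
    (hJ : J ≠ ⊥) (hinv : ∀ g, ∀ v ∈ J, σ g v ∈ J) :
    ∃ U : Subrepresentation σ, U.toSubmodule ≤ J ∧ U.toRepresentation.IsIrreducible := by
  classical
  have hex : ∃ n : ℕ, ∃ U : Subrepresentation σ, U.toSubmodule ≠ ⊥ ∧ U.toSubmodule ≤ J ∧
      finrank ℂ U.toSubmodule = n :=
    ⟨_, ⟨J, fun g v hv => hinv g v hv⟩, hJ, le_rfl, rfl⟩
  obtain ⟨U, hU0, hUJ, hUn⟩ := Nat.find_spec hex
  refine ⟨U, hUJ, ?_⟩
  have : Nontrivial U.toSubmodule := Submodule.nontrivial_iff_ne_bot.2 hU0
  apply irr_of_forall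
  intro W hW
  by_contra hcon
  push Not at hcon
  obtain ⟨hW0, hW1⟩ := hcon
  let W' : Subrepresentation σ := ⟨W.map U.toSubmodule.subtype, fun g v hv => by
    obtain ⟨w, hw, rfl⟩ := hv
    exact ⟨_, hW g w hw, rfl⟩⟩
  have h1 : finrank ℂ W'.toSubmodule = finrank ℂ W :=
    Submodule.finrank_map_subtype_eq _ _
  have h2 : finrank ℂ W < finrank ℂ U.toSubmodule := Submodule.finrank_lt hW1
  refine Nat.find_min hex (m := finrank ℂ W) (by omega) ⟨W', ?_, ?_, h1⟩
  · intro h
    apply hW0
    rw [eq_bot_iff]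
    intro w hw
    have : (w : V) ∈ W'.toSubmodule := ⟨w, hw, rfl⟩
    rw [h] at this
    simpa using this
  · intro v hv
    obtain ⟨w, _, rfl⟩ := hv
    exact hUJ w.2

/-- A nontrivial normal subgroup has zero average on some irreducible representation. -/
theorem exists_irr_sum_zero {H : Type*} [Group H] [Finite H] (D : Subgroup H) [D.Normal]
    [Fintype D] (hD : D ≠ ⊥) : ∃ (n : ℕ) (σ : Representation ℂ H (Fin n → ℂ)),
      σ.IsIrreducible ∧ ∀ v, ∑ d : D, σ (d : H) v = 0 := by
  classical
  let ρ : Representation ℂ H (MonoidAlgebra ℂ H) := ofMulAction ℂ H H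
  let T : MonoidAlgebra ℂ H →ₗ[ℂ] MonoidAlgebra ℂ H := ∑ d : D, ρ (d : H)
  have hT : ∀ v, T v = ∑ d : D, ρ (d : H) v := fun v => by simp [T]
  have hcomm : ∀ g v, ρ g (T v) = T (ρ g v) := by
    intro g v
    rw [hT, hT, map_sum]
    rw [← Equiv.sum_comp (MulAut.conjNormal (H := D) g).toEquiv
      (fun x : D => ρ (x : H) (ρ g v))]
    refine Finset.sum_congr rfl fun x _ => ?_
    simp [← Module.End.mul_apply, ← map_mul]
  have hright : ∀ d ∈ D, ∀ v, T (ρ d v) = T v := by
    intro d hd v
    rw [hT, hT]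
    rw [← Equiv.sum_comp (Equiv.mulRight (⟨d, hd⟩ : D)) (fun x : D => ρ (x : H) v)]
    refine Finset.sum_congr rfl fun x _ => ?_
    simp [← Module.End.mul_apply, ← map_mul]
  obtain ⟨d, hd1⟩ := Subgroup.ne_bot_iff_exists_ne_one.1 hD
  have hJ : LinearMap.ker T ≠ ⊥ := by
    intro h
    have h1 : ρ d (MonoidAlgebra.single 1 1) - MonoidAlgebra.single 1 1 ∈ LinearMap.ker T := by
      rw [LinearMap.mem_ker, map_sub, hright d d.2, sub_self]
    rw [h, Submodule.mem_bot, sub_eq_zero, ofMulAction_single, smul_eq_mul, mul_one] at h1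
    have h2 := MonoidAlgebra.single_left_injective (one_ne_zero (α := ℂ)) h1
    exact hd1 (Subtype.ext h2)
  obtain ⟨U, hUJ, hU⟩ := exists_irr_sub ρ (LinearMap.ker T) hJ (fun g v hv => by
    rw [LinearMap.mem_ker] at hv ⊢
    rw [← hcomm, hv, map_zero])
  have hzero : ∀ v, ∑ d : D, U.toRepresentation (d : H) v = 0 := by
    intro v
    have h1 : T (v : MonoidAlgebra ℂ H) = 0 := hUJ v.2
    rw [hT] at h1
    apply Subtype.ext
    rw [Submodule.coe_zero, ← h1, AddSubmonoidClass.coe_finsetSum]
    rfl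
  obtain ⟨n, e, he, -⟩ := exists_transport U.toRepresentation
  refine ⟨n, _, he, fun v => ?_⟩
  simp only [transport_apply]
  rw [← map_sum, hzero, map_zero]

/-- A character vanishes at an element that centralizes no nontrivial element of a normal subgroup
with zero average. -/
theorem character_eq_zero [Finite Γ] (σ : Representation ℂ Γ V) [FiniteDimensional ℂ V]
    (D : Subgroup Γ) [D.Normal] [Fintype D] (hD : ∀ v, ∑ d : D, σ (d : Γ) v = 0) (u : Γ)
    (hu : ∀ d ∈ D, d * u = u * d → d = 1) : σ.character u = 0 := by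
  classical
  let φ : D → D := fun l => ⟨u⁻¹ * l * u * (l : Γ)⁻¹, by
    refine mul_mem ?_ (inv_mem l.2)
    have := Subgroup.Normal.conj_mem ‹D.Normal› l l.2 u⁻¹
    simpa using this⟩
  have hφ : Function.Injective φ := by
    intro l m h
    have h1 : u⁻¹ * l * u * (l : Γ)⁻¹ = u⁻¹ * m * u * (m : Γ)⁻¹ := congrArg Subtype.val h
    have h2 : ((m : Γ)⁻¹ * l) * u = u * ((m : Γ)⁻¹ * l) := by
      have h3 : (l : Γ) * u * (l : Γ)⁻¹ = m * u * (m : Γ)⁻¹ := by
        have := congrArg (u * ·) h1
        simpa [mul_assoc] using this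
      calc ((m : Γ)⁻¹ * l) * u = (m : Γ)⁻¹ * (l * u * (l : Γ)⁻¹) * l := by group
        _ = (m : Γ)⁻¹ * (m * u * (m : Γ)⁻¹) * l := by rw [h3]
        _ = u * ((m : Γ)⁻¹ * l) := by group
    have h3 := hu _ (mul_mem (inv_mem m.2) l.2) h2
    exact Subtype.ext (inv_mul_eq_one.1 h3).symm
  have hbij : Function.Bijective φ := Finite.injective_iff_bijective.1 hφ
  have h1 : ∑ d : D, σ.character (u * d) = 0 := by
    have h2 : LinearMap.trace ℂ V (∑ d : D, σ (u * d)) = 0 := by
      have : ∑ d : D, σ (u * d) = 0 := by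
        ext v
        rw [LinearMap.sum_apply, LinearMap.zero_apply]
        have : ∀ d : D, σ (u * d) v = σ u (σ (d : Γ) v) := fun d => by
          rw [map_mul, Module.End.mul_apply]
        rw [Finset.sum_congr rfl (fun d _ => this d), ← map_sum, hD, map_zero]
      rw [this, map_zero]
    rw [map_sum] at h2
    exact h2
  rw [← Equiv.sum_comp (Equiv.ofBijective φ hbij)] at h1
  have h2 : ∀ l : D, σ.character (u * (Equiv.ofBijective φ hbij l : Γ)) = σ.character u := by
    intro l
    have : u * (Equiv.ofBijective φ hbij l : Γ) = l * u * (l : Γ)⁻¹ := by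
      simp [φ, mul_assoc]
    rw [this, char_conj]
  rw [Finset.sum_congr rfl (fun l _ => h2 l)] at h1
  simpa using h1

/-- If a character vanishes on the nontrivial elements of a subgroup then the order of that
subgroup divides the degree. -/
theorem card_dvd_finrank [Finite Γ] (σ : Representation ℂ Γ V) [FiniteDimensional ℂ V]
    (P : Subgroup Γ) (hP : ∀ u ∈ P, u ≠ 1 → σ.character u = 0) :
    Nat.card P ∣ finrank ℂ V := by
  classical
  have := Fintype.ofFinite P
  have hc : (Nat.card P : ℂ) ≠ 0 := by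
    exact_mod_cast Nat.card_pos.ne'
  have : Invertible (Nat.card P : ℂ) := invertibleOfNonzero hc
  have h1 := card_inv_mul_sum_char_eq_finrank (k := ℂ) (G := P) (V := V) (σ.comp P.subtype)
  have h2 : ∑ g : P, Representation.character (σ.comp P.subtype) g = (finrank ℂ V : ℂ) := by
    rw [Finset.sum_eq_single 1]
    · exact char_one _
    · intro b _ hb
      exact hP b b.2 (fun h => hb (Subtype.ext h))
    · simp
  rw [h2, inv_mul_eq_iff_eq_mul₀ hc] at h1
  exact ⟨_, by exact_mod_cast h1⟩

end

end Vale.Agent.P179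
end
end

section

section

/-! Weights belonging to the principal block. -/

namespace Vale.Agent.P179

open Subgroup

universe u v

section Red

variable {k : Type v} [Field k] (rho : integralClosure ℤ ℂ →+* k)

theorem red_of_isIntegral {c : ℂ} (h : IsIntegral ℤ c) :
    red rho c = rho ⟨c, h⟩ := by
  have h' : c ∈ integralClosure ℤ ℂ := h
  unfold red
  rw [dif_pos h']

theorem red_natCast (n : ℕ) : red rho (n : ℂ) = n := by
  have h : IsIntegral ℤ (n : ℂ) := isIntegral_algebraMap (x := (n : ℤ))
  rw [red_of_isIntegral rho h]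
  have : (⟨(n : ℂ), h⟩ : integralClosure ℤ ℂ) = (n : integralClosure ℤ ℂ) := rfl
  rw [this, map_natCast]

theorem red_natCast_mul (n : ℕ) {c : ℂ} (h : IsIntegral ℤ c) :
    red rho (n * c) = n * red rho c := by
  have hn : IsIntegral ℤ (n : ℂ) := isIntegral_algebraMap (x := (n : ℤ))
  rw [red_of_isIntegral rho h, red_of_isIntegral rho (hn.mul h)]
  have : (⟨(n : ℂ) * c, hn.mul h⟩ : integralClosure ℤ ℂ) =
    (n : integralClosure ℤ ℂ) * ⟨c, h⟩ := rfl
  rw [this, map_mul, map_natCast]

theorem red_sum {ι : Type*} (s : Finset ι) (f : ι → ℂ) (h : ∀ i ∈ s, IsIntegral ℤ (f i)) :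
    red rho (∑ i ∈ s, f i) = ∑ i ∈ s, red rho (f i) := by
  classical
  induction s using Finset.induction_on with
  | empty =>
    have := red_natCast rho 0
    simpa using this
  | insert a s ha ih =>
    have h1 : IsIntegral ℤ (f a) := h a (Finset.mem_insert_self a s)
    have h2 : ∀ i ∈ s, IsIntegral ℤ (f i) := fun i hi => h i (Finset.mem_insert_of_mem hi)
    rw [Finset.sum_insert ha, Finset.sum_insert ha, ← ih h2, red_of_isIntegral rho h1,
      red_of_isIntegral rho (IsIntegral.sum _ h2),
      red_of_isIntegral rho (h1.add (IsIntegral.sum _ h2)), ← map_add]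
    rfl

end Red

theorem resCoeff_coeff {k : Type v} [Field k] {G : Type u} [Group G] (H : Subgroup G)
    (z : MonoidAlgebra k G) (h : H) : (resCoeff H z).coeff h = z.coeff (h : G) := rfl

theorem coeff_conj {k : Type v} [Field k] {G : Type u} [Group G] {z : MonoidAlgebra k G}
    (hz : z ∈ Set.center (MonoidAlgebra k G)) (g x : G) :
    z.coeff (g * x * g⁻¹) = z.coeff x := by
  have h := congrArg (fun a => a.coeff (g * x)) (mem_center_iff_single.1 hz g)
  simp only [MonoidAlgebra.coeff_single_mul_apply, MonoidAlgebra.coeff_mul_single_apply] at h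
  simpa using h.symm

/-- Class sizes modulo a normal p-subgroup. -/
theorem card_class_quot {p : ℕ} [Fact p.Prime] {Γ : Type*} [Group Γ] [Finite Γ] (K : Subgroup Γ)
    [K.Normal] (hK : IsPGroup p K) (x : Γ) (hx : x ∉ centralizer (K : Set Γ)) :
    ∃ t : ℕ, p ∣ t ∧ Nat.card (ConjClasses.mk x).carrier =
      t * Nat.card (ConjClasses.mk (QuotientGroup.mk x : Γ ⧸ K)).carrier := by
  classical
  let C := (ConjClasses.mk x).carrier
  let D := (ConjClasses.mk (QuotientGroup.mk x : Γ ⧸ K)).carrier
  have hC : ∀ y, y ∈ C ↔ ∃ g, g * x * g⁻¹ = y := by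
    intro y
    change y ∈ (ConjClasses.mk x).carrier ↔ _
    rw [ConjClasses.mem_carrier_iff_mk_eq, eq_comm, ConjClasses.mk_eq_mk_iff_isConj, isConj_iff]
  have hD : ∀ y, y ∈ D ↔ ∃ g, g * (QuotientGroup.mk x : Γ ⧸ K) * g⁻¹ = y := by
    intro y
    change y ∈ (ConjClasses.mk (QuotientGroup.mk x : Γ ⧸ K)).carrier ↔ _
    rw [ConjClasses.mem_carrier_iff_mk_eq, eq_comm, ConjClasses.mk_eq_mk_iff_isConj, isConj_iff]
  let π : C → D := fun y => ⟨QuotientGroup.mk (y : Γ), by
    obtain ⟨g, hg⟩ := (hC y).1 y.2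
    rw [hD]
    exact ⟨QuotientGroup.mk g, by rw [← hg]; rfl⟩⟩
  let F := {y : C // π y = π ⟨x, (hC x).2 ⟨1, by simp⟩⟩}
  have hconjC : ∀ (g : Γ) (y : C), g * y * g⁻¹ ∈ C := by
    intro g y
    obtain ⟨h, hh⟩ := (hC y).1 y.2
    exact (hC _).2 ⟨g * h, by rw [← hh]; group⟩
  have hfib : ∀ d : D, Nonempty ({y : C // π y = d} ≃ F) := by
    intro d
    obtain ⟨g', hg'⟩ := (hD d).1 d.2
    obtain ⟨g, rfl⟩ := QuotientGroup.mk_surjective g'
    have hπ : ∀ y : C, π y = d ↔ (QuotientGroup.mk (y : Γ) : Γ ⧸ K) = d := fun y =>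
      ⟨fun h => congrArg Subtype.val h, fun h => Subtype.ext h⟩
    have hπ' : ∀ y : C, π y = π ⟨x, (hC x).2 ⟨1, by simp⟩⟩ ↔
        (QuotientGroup.mk (y : Γ) : Γ ⧸ K) = QuotientGroup.mk x := fun y =>
      ⟨fun h => congrArg Subtype.val h, fun h => Subtype.ext h⟩
    refine ⟨
      { toFun := fun y => ⟨⟨g⁻¹ * y.1 * g, by simpa using hconjC g⁻¹ y.1⟩, ?_⟩
        invFun := fun y => ⟨⟨g * y.1 * g⁻¹, hconjC g y.1⟩, ?_⟩
        left_inv := fun y => by
          apply Subtype.ext
          apply Subtype.ext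
          simp [mul_assoc]
        right_inv := fun y => by
          apply Subtype.ext
          apply Subtype.ext
          simp [mul_assoc] }⟩
    · rw [hπ']
      have := (hπ y.1).1 y.2
      simp only [QuotientGroup.mk_mul, QuotientGroup.mk_inv, this, ← hg']
      group
    · rw [hπ]
      have := (hπ' y.1).1 y.2
      simp only [QuotientGroup.mk_mul, QuotientGroup.mk_inv, this, ← hg']
  have hcard : Nat.card C = Nat.card F * Nat.card D := by
    have := Fintype.ofFinite D
    rw [← Nat.card_congr (Equiv.sigmaFiberEquiv π), Nat.card_sigma,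
      Finset.sum_congr rfl (fun d _ => Nat.card_congr (hfib d).some)]
    simp [mul_comm]
  refine ⟨Nat.card F, ?_, hcard⟩
  have hKconj : ∀ (κ : K) (y : F), π ⟨κ * y.1 * (κ : Γ)⁻¹, hconjC κ y.1⟩ =
      π ⟨x, (hC x).2 ⟨1, by simp⟩⟩ := by
    intro κ y
    have h1 : (QuotientGroup.mk (y.1 : Γ) : Γ ⧸ K) = QuotientGroup.mk x :=
      congrArg Subtype.val y.2
    apply Subtype.ext
    change (QuotientGroup.mk ((κ : Γ) * y.1 * (κ : Γ)⁻¹) : Γ ⧸ K) = QuotientGroup.mk x
    have h2 : (QuotientGroup.mk (κ : Γ) : Γ ⧸ K) = 1 := (QuotientGroup.eq_one_iff _).2 κ.2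
    rw [QuotientGroup.mk_mul, QuotientGroup.mk_mul, QuotientGroup.mk_inv, h2, h1]
    simp
  let act : MulAction K F :=
    { smul := fun κ y => ⟨⟨κ * y.1 * (κ : Γ)⁻¹, hconjC κ y.1⟩, hKconj κ y⟩
      one_smul := fun y => by
        apply Subtype.ext
        apply Subtype.ext
        change ((1 : K) : Γ) * y.1 * ((1 : K) : Γ)⁻¹ = y.1
        simp
      mul_smul := fun κ κ' y => by
        apply Subtype.ext
        apply Subtype.ext
        change ((κ * κ' : K) : Γ) * y.1 * ((κ * κ' : K) : Γ)⁻¹ =
          κ * (κ' * y.1 * (κ' : Γ)⁻¹) * (κ : Γ)⁻¹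
        simp [mul_assoc] }
  have hmod := hK.card_modEq_card_fixedPoints F
  have hempty : IsEmpty (MulAction.fixedPoints K F) := by
    refine ⟨fun y => hx ?_⟩
    obtain ⟨g, hg⟩ := (hC y.1.1).1 y.1.1.2
    have hy : (y.1.1 : Γ) ∈ centralizer (K : Set Γ) := by
      rw [mem_centralizer_iff]
      intro κ hκ
      have h1 := y.2 ⟨κ, hκ⟩
      have h2 : κ * (y.1.1 : Γ) * κ⁻¹ = y.1.1 := congrArg (fun t : F => (t.1 : Γ)) h1
      exact mul_inv_eq_iff_eq_mul.1 h2
    have h3 : x = g⁻¹ * y.1.1 * g := by rw [← hg]; group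
    rw [h3, mem_centralizer_iff]
    intro κ hκ
    have h4 := mem_centralizer_iff.1 hy (g * κ * g⁻¹) (Normal.conj_mem inferInstance κ hκ g)
    calc κ * (g⁻¹ * y.1.1 * g) = g⁻¹ * ((g * κ * g⁻¹) * y.1.1) * g := by group
      _ = g⁻¹ * (y.1.1 * (g * κ * g⁻¹)) * g := by rw [h4]
      _ = g⁻¹ * y.1.1 * g * κ := by group
  have h0 : Nat.card (MulAction.fixedPoints K F) = 0 := Nat.card_of_isEmpty
  rw [h0] at hmod
  exact (Nat.modEq_zero_iff_dvd).1 hmod

section Chars

variable {H : Type*} [Group H] [Finite H] {f : H → ℂ}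

theorem isIntegral_isIrrChar (hf : IsIrrChar H f) (C : ConjClasses H) (x : H)
    (hx : x ∈ C.carrier) : IsIntegral ℤ ((Nat.card C.carrier : ℂ) * f x / f 1) := by
  obtain ⟨n, σ, hσ, rfl⟩ := hf
  have := isIntegral_central σ C x hx
  rwa [Representation.char_one]

omit [Finite H] in
theorem irr_one_ne_zero (hf : IsIrrChar H f) : f 1 ≠ 0 := by
  obtain ⟨n, σ, hσ, rfl⟩ := hf
  have := irr_nontrivial σ
  rw [Representation.char_one]
  exact_mod_cast (Module.finrank_pos (R := ℂ) (M := Fin n → ℂ)).ne'

omit [Finite H] in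
theorem irr_conj (hf : IsIrrChar H f) (g x : H) : f (g * x * g⁻¹) = f x := by
  obtain ⟨n, σ, hσ, rfl⟩ := hf
  exact Representation.char_conj σ x g

omit [Finite H] in
theorem isIrrChar_comp {Γ : Type*} [Group Γ] (π : Γ →* H) (hπ : Function.Surjective π)
    (hf : IsIrrChar H f) : IsIrrChar Γ (fun x => f (π x)) := by
  obtain ⟨n, σ, hσ, rfl⟩ := hf
  exact ⟨n, _, irr_comp σ π hπ, rfl⟩

end Chars

/-- A copy of G, on which subgroups act by conjugation. -/
@[ext] structure ConjSet (G : Type u) where
  /-- the element -/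
  val : G

/-- The identification of G with its copy. -/
def conjSetEquiv (G : Type u) : ConjSet G ≃ G := ⟨ConjSet.val, ConjSet.mk, fun _ => rfl, fun _ => rfl⟩

instance {G : Type u} [Group G] (Q : Subgroup G) : MulAction Q (ConjSet G) where
  smul q x := ⟨(q : G) * x.val * (q : G)⁻¹⟩
  one_smul x := by
    ext
    change ((1 : Q) : G) * x.val * ((1 : Q) : G)⁻¹ = x.val
    simp
  mul_smul q r x := by
    ext
    change ((q * r : Q) : G) * x.val * ((q * r : Q) : G)⁻¹ =
      (q : G) * ((r : G) * x.val * (r : G)⁻¹) * (q : G)⁻¹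
    simp [mul_assoc]

theorem conj_mem_centralizer {G : Type u} [Group G] {Q : Subgroup G} {g x : G}
    (hg : g ∈ normalizer (Q : Set G)) (hx : x ∈ centralizer (Q : Set G)) :
    g * x * g⁻¹ ∈ centralizer (Q : Set G) := by
  rw [mem_centralizer_iff] at hx ⊢
  intro h hh
  have h1 : g⁻¹ * h * g ∈ Q := by
    have := (mem_normalizer_iff.1 (inv_mem hg) h).1 hh
    simpa using this
  have h2 := hx _ h1
  calc h * (g * x * g⁻¹) = g * ((g⁻¹ * h * g) * x) * g⁻¹ := by group
    _ = g * (x * (g⁻¹ * h * g)) * g⁻¹ := by rw [h2]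
    _ = g * x * g⁻¹ * h := by group

section PB

variable {k : Type v} [Field k] {p : ℕ} [Fact p.Prime] [CharP k p]
  (rho : integralClosure ℤ ℂ →+* k) {G : Type u} [Group G]

open Classical in
theorem aug_eq_sum_centralizer [Fintype G] {Q : Subgroup G} (hQ : IsPGroup p Q)
    {z : MonoidAlgebra k G} (hz : z ∈ Set.center (MonoidAlgebra k G)) :
    aug z = ∑ x with x ∈ centralizer (Q : Set G), z.coeff x := by
  have : Fintype (ConjSet G) := Fintype.ofEquiv G (conjSetEquiv G).symm
  have h1 := sum_eq_sum_fixed hQ (X := ConjSet G) (fun x => z.coeff x.val)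
    (fun q x => coeff_conj hz (q : G) x.val)
  have h2 : ∀ x : ConjSet G, x ∈ MulAction.fixedPoints Q (ConjSet G) ↔
      x.val ∈ centralizer (Q : Set G) := by
    intro x
    rw [mem_centralizer_iff]
    constructor
    · intro h q hq
      have h3 : q * x.val * q⁻¹ = x.val := congrArg ConjSet.val (h ⟨q, hq⟩)
      exact mul_inv_eq_iff_eq_mul.1 h3
    · intro h q
      ext
      change (q : G) * x.val * (q : G)⁻¹ = x.val
      rw [mul_inv_eq_iff_eq_mul]
      exact h q q.2
  rw [Finset.sum_filter] at h1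
  simp only [h2] at h1
  rw [aug_eq_sum', Finset.sum_filter, ← Equiv.sum_comp (conjSetEquiv G),
    ← Equiv.sum_comp (conjSetEquiv G)]
  exact h1

theorem blockChar_eq_sum {H : Type u} [Group H] [Fintype (ConjClasses H)] (f : H → ℂ)
    (z : MonoidAlgebra k H) : blockChar rho f z =
      ∑ C : ConjClasses H, z.coeff C.out * red rho (Nat.card C.carrier * f C.out / f 1) :=
  finsum_eq_sum_of_fintype _

theorem mem_carrier_out {H : Type*} [Group H] (C : ConjClasses H) : C.out ∈ C.carrier :=
  ConjClasses.mem_carrier_iff_mk_eq.2 (Quotient.out_eq C)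

/-- Weights whose character is trivial on the centralizer of Q have the central character of the
principal block. -/
theorem blockChar_eq_aug [Finite G] (w : Weight p G)
    (hw : ∀ x : normalizer (w.Q : Set G), (x : G) ∈ centralizer (w.Q : Set G) →
      w.infl x = w.infl 1)
    {z : MonoidAlgebra k G} (hz : z ∈ Set.center (MonoidAlgebra k G)) :
    blockChar rho w.infl (resCoeff (normalizer (w.Q : Set G)) z) = aug z := by
  classical
  have := Fintype.ofFinite G
  have : Fintype (normalizer (w.Q : Set G)) := Fintype.ofFinite _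
  have : Fintype (ConjClasses (normalizer (w.Q : Set G))) := Fintype.ofFinite _
  let Q' := w.Q.subgroupOf (normalizer (w.Q : Set G))
  have hQ' : IsPGroup p Q' := w.isPGroup.comap_of_injective _ (Subtype.val_injective)
  have hirr : IsIrrChar (normalizer (w.Q : Set G)) w.infl :=
    isIrrChar_comp (QuotientGroup.mk' Q') (QuotientGroup.mk'_surjective Q') w.irr
  have h1 : w.infl 1 ≠ 0 := irr_one_ne_zero hirr
  have hcent : ∀ g x : normalizer (w.Q : Set G), ((g * x * g⁻¹ : normalizer (w.Q : Set G)) : G) ∈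
      centralizer (w.Q : Set G) ↔ (x : G) ∈ centralizer (w.Q : Set G) := by
    intro g x
    constructor
    · intro h
      have := conj_mem_centralizer (inv_mem g.2) h
      simpa [mul_assoc] using this
    · intro h
      exact conj_mem_centralizer g.2 h
  let F : normalizer (w.Q : Set G) → k := fun x =>
    if (x : G) ∈ centralizer (w.Q : Set G) then z.coeff (x : G) else 0
  have hF : ∀ g x, F (g * x * g⁻¹) = F x := by
    intro g x
    simp only [F, hcent]
    have : z.coeff ((g * x * g⁻¹ : normalizer (w.Q : Set G)) : G) = z.coeff (x : G) :=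
      coeff_conj hz (g : G) (x : G)
    rw [this]
  rw [blockChar_eq_sum, aug_eq_sum_centralizer w.isPGroup hz]
  have h2 : ∑ x with x ∈ centralizer (w.Q : Set G), z.coeff x = ∑ x, F x := by
    have h3 := Finset.sum_subtype (F := (inferInstance : Fintype (normalizer (w.Q : Set G))))
      (Finset.univ.filter (· ∈ normalizer (w.Q : Set G)))
      (p := (· ∈ normalizer (w.Q : Set G))) (by simp)
      (fun x => if x ∈ centralizer (w.Q : Set G) then z.coeff x else 0)
    rw [Finset.sum_filter]
    refine Eq.trans ?_ h3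
    symm
    apply Finset.sum_subset (Finset.filter_subset _ _)
    intro x _ hx
    rw [if_neg]
    intro hc
    exact hx (Finset.mem_filter.2 ⟨Finset.mem_univ _, centralizer_le_normalizer _ hc⟩)
  rw [h2, sum_classes F hF]
  refine Finset.sum_congr rfl fun C _ => ?_
  rw [resCoeff_coeff]
  by_cases hC : ((Quotient.out C : normalizer (w.Q : Set G)) : G) ∈ centralizer (w.Q : Set G)
  · simp only [F, if_pos hC]
    rw [hw _ hC, mul_div_assoc, div_self h1, mul_one, red_natCast, mul_comm]
  · simp only [F, if_neg hC]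
    rw [mul_zero]
    have hx : Quotient.out C ∉ centralizer (Q' : Set (normalizer (w.Q : Set G))) := by
      intro h
      apply hC
      rw [mem_centralizer_iff] at h ⊢
      intro q hq
      have h3 := h ⟨q, le_normalizer hq⟩ (mem_subgroupOf.2 hq)
      exact congrArg Subtype.val h3
    obtain ⟨t, ht, hcard⟩ := card_class_quot Q' hQ' (Quotient.out C) hx
    have hmk : ConjClasses.mk (Quotient.out C) = C := Quotient.out_eq C
    rw [hmk] at hcard
    have h4 := isIntegral_isIrrChar w.irr
      (ConjClasses.mk (QuotientGroup.mk (Quotient.out C) : normalizer (w.Q : Set G) ⧸ Q'))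
      (QuotientGroup.mk (Quotient.out C)) ConjClasses.mem_carrier_mk
    have h5 : (Nat.card C.carrier : ℂ) * w.infl (Quotient.out C) / w.infl 1 =
        t * ((Nat.card (ConjClasses.mk (QuotientGroup.mk (Quotient.out C) :
          normalizer (w.Q : Set G) ⧸ Q')).carrier : ℂ) *
          w.phi (QuotientGroup.mk (Quotient.out C)) / w.phi 1) := by
      rw [hcard, Nat.cast_mul, mul_assoc, mul_div_assoc]
      rfl
    rw [h5, red_natCast_mul rho t h4, (CharP.cast_eq_zero_iff k p t).2 ht, zero_mul, mul_zero]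

end PB

end Vale.Agent.P179
end
end

section

section

/-! A maximal p-subgroup Q with N_G(Q)/C_G(Q) not a p-group is centric, and the p-local subgroups
of N_G(Q)/QC_G(Q) are p-groups. -/

namespace Vale.Agent.P179

open Subgroup

universe u

variable {G : Type u} [Group G]

/-- N_G(T)/C_G(T) is a p-group. -/
def Good (p : ℕ) (T : Subgroup G) : Prop :=
  ∀ g ∈ normalizer (T : Set G), ∃ n : ℕ, g ^ p ^ n ∈ centralizer (T : Set G)

theorem map_conj_eq {T : Subgroup G} {g : G} (hg : g ∈ normalizer (T : Set G)) :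
    T.map (MulAut.conj g).toMonoidHom = T := by
  ext t
  constructor
  · rintro ⟨s, hs, rfl⟩
    exact (mem_normalizer_iff.1 hg s).1 hs
  · intro ht
    refine ⟨g⁻¹ * t * g, ?_, by simp [mul_assoc]⟩
    have := (mem_normalizer_iff.1 (inv_mem hg) t).1 ht
    simpa using this

theorem mem_normalizer_of_map {T : Subgroup G} {g : G}
    (hg : T.map (MulAut.conj g).toMonoidHom = T) : g ∈ normalizer (T : Set G) := by
  rw [mem_normalizer_iff]
  intro t
  constructor
  · intro ht
    have h3 : g * t * g⁻¹ ∈ T.map (MulAut.conj g).toMonoidHom := ⟨t, ht, rfl⟩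
    rwa [hg] at h3
  · intro ht
    have h3 : g * t * g⁻¹ ∈ T := ht
    rw [← hg] at h3
    obtain ⟨s, hs, hst⟩ := h3
    have : s = t := (MulAut.conj g).injective hst
    rwa [← this]

theorem mem_normalizer_sup {T Q : Subgroup G} {g : G} (hT : g ∈ normalizer (T : Set G))
    (hQ : g ∈ normalizer (Q : Set G)) : g ∈ normalizer ((T ⊔ Q : Subgroup G) : Set G) := by
  apply mem_normalizer_of_map
  rw [Subgroup.map_sup, map_conj_eq hT, map_conj_eq hQ]

theorem exists_sylow_in (p : ℕ) [Fact p.Prime] [Finite G] (X : Subgroup G) :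
    ∃ T : Subgroup G, T ≤ X ∧ IsPGroup p T ∧
      (∀ g ∈ normalizer (X : Set G), ∃ x ∈ X, x * g ∈ normalizer (T : Set G)) ∧
      ∀ T' : Subgroup G, T' ≤ X → IsPGroup p T' → ∃ x ∈ X, ∀ t ∈ T', x * t * x⁻¹ ∈ T := by
  obtain ⟨S⟩ : Nonempty (Sylow p X) := inferInstance
  have h2 : ∀ T' : Subgroup G, T' ≤ X → IsPGroup p T' →
      ∃ x ∈ X, ∀ t ∈ T', x * t * x⁻¹ ∈ (S : Subgroup X).map X.subtype := by
    intro T' hT' hp
    have h3 : IsPGroup p (T'.subgroupOf X) := hp.comap_of_injective _ Subtype.val_injective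
    obtain ⟨S', hS'⟩ := h3.exists_le_sylow
    obtain ⟨x, hx⟩ := MulAction.exists_smul_eq X S' S
    refine ⟨x, x.2, fun t ht => ?_⟩
    have h4 : (⟨t, hT' ht⟩ : X) ∈ S' := hS' (mem_subgroupOf.2 ht)
    have h5 : x * ⟨t, hT' ht⟩ * x⁻¹ ∈ (S : Subgroup X) := by
      rw [← hx, Sylow.coe_subgroup_smul, Subgroup.mem_pointwise_smul_iff_inv_smul_mem]
      have h6 : (MulAut.conj x)⁻¹ • (x * ⟨t, hT' ht⟩ * x⁻¹) = (⟨t, hT' ht⟩ : X) := by
        simp [MulAut.smul_def, mul_assoc]
      rw [h6]
      exact h4
    exact ⟨_, h5, rfl⟩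
  refine ⟨(S : Subgroup X).map X.subtype, map_subtype_le _, S.isPGroup'.map _, ?_, h2⟩
  intro g hg
  obtain ⟨x, hx, hxt⟩ := h2 (((S : Subgroup X).map X.subtype).map (MulAut.conj g).toMonoidHom)
    (by
      rintro _ ⟨t, ht, rfl⟩
      exact (mem_normalizer_iff.1 hg t).1 (map_subtype_le _ ht))
    ((S.isPGroup'.map _).map _)
  refine ⟨x, hx, ?_⟩
  have h3 : ((S : Subgroup X).map X.subtype).map (MulAut.conj (x * g)).toMonoidHom ≤
      (S : Subgroup X).map X.subtype := by
    rintro _ ⟨t, ht, rfl⟩
    have := hxt (g * t * g⁻¹) ⟨t, ht, rfl⟩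
    simpa [mul_assoc] using this
  have h4 : ((S : Subgroup X).map X.subtype).map (MulAut.conj (x * g)).toMonoidHom =
      (S : Subgroup X).map X.subtype := by
    apply Subgroup.eq_of_le_of_card_ge h3
    exact (Subgroup.card_map_of_injective (f := (MulAut.conj (x * g)).toMonoidHom)
      (MulAut.conj (x * g)).injective).ge
  exact mem_normalizer_of_map h4

theorem exists_maximal_bad {p : ℕ} [Finite G] (h : ¬ FrobCond p G) :
    ∃ Q : Subgroup G, IsPGroup p Q ∧ ¬ Good p Q ∧
      ∀ T : Subgroup G, IsPGroup p T → Nat.card Q < Nat.card T → Good p T := by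
  have hne : Nonempty {U : Subgroup G // IsPGroup p U ∧ ¬ Good p U} := by
    by_contra hcon
    rw [not_nonempty_iff] at hcon
    apply h
    intro U hU
    by_contra hb
    exact hcon.false ⟨U, hU, hb⟩
  obtain ⟨Q, hQ⟩ := Finite.exists_max
    (fun U : {U : Subgroup G // IsPGroup p U ∧ ¬ Good p U} => Nat.card U.1)
  refine ⟨Q.1, Q.2.1, Q.2.2, fun T hT hlt => ?_⟩
  by_contra hb
  exact absurd (hQ ⟨T, hT, hb⟩) (not_le_of_gt hlt)

theorem pow_mem_of_mul_mem {E : Subgroup G} [E.Normal] {c h : G} (hc : c ∈ E) {m : ℕ}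
    (hm : (c * h) ^ m ∈ E) : h ^ m ∈ E := by
  rw [← QuotientGroup.eq_one_iff] at hm hc ⊢
  rw [QuotientGroup.mk_pow] at hm ⊢
  rwa [QuotientGroup.mk_mul, hc, one_mul] at hm

theorem card_lt_of_lt [Finite G] {Q T : Subgroup G} (h : Q < T) : Nat.card Q < Nat.card T := by
  apply lt_of_le_of_ne (Subgroup.card_le_of_le h.le)
  intro hc
  exact h.ne (Subgroup.eq_of_le_of_card_ge h.le hc.ge)

instance centralizer_subgroupOf_normal (Q : Subgroup G) :
    ((centralizer (Q : Set G)).subgroupOf (normalizer (Q : Set G))).Normal :=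
  ⟨fun c hc g => by
    rw [mem_subgroupOf] at hc ⊢
    exact conj_mem_centralizer g.2 hc⟩

theorem centric_of_maximal_bad {p : ℕ} [Fact p.Prime] [Finite G] {Q : Subgroup G}
    (hQ : IsPGroup p Q) (hbad : ¬ Good p Q)
    (hmax : ∀ T : Subgroup G, IsPGroup p T → Nat.card Q < Nat.card T → Good p T)
    (T' : Subgroup G) (hT' : IsPGroup p T') (hT'C : T' ≤ centralizer (Q : Set G)) : T' ≤ Q := by
  obtain ⟨T, hTX, hTp, hTn, hTc⟩ := exists_sylow_in p (centralizer (Q : Set G))
  by_cases hTQ : T ≤ Q
  · obtain ⟨x, hx, hxt⟩ := hTc T' hT'C hT'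
    intro t ht
    have h1 : x * t * x⁻¹ ∈ Q := hTQ (hxt t ht)
    have h2 := mem_centralizer_iff.1 hx _ h1
    have h3 : t = x * t * x⁻¹ := by
      have : x * t * x⁻¹ * x = x * t := by group
      rw [this] at h2
      exact (mul_left_cancel h2)
    rw [h3]
    exact h1
  · exfalso
    apply hbad
    have hTN : T ≤ normalizer (Q : Set G) := hTX.trans (centralizer_le_normalizer _)
    have hR : IsPGroup p (T ⊔ Q : Subgroup G) := hTp.to_sup_of_normal_right' hQ hTN
    have hlt : Q < T ⊔ Q := by
      refine lt_of_le_of_ne le_sup_right fun h => hTQ ?_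
      rw [h]
      exact le_sup_left
    have hgood := hmax _ hR (card_lt_of_lt hlt)
    intro g hg
    obtain ⟨x, hx, hxg⟩ := hTn g (by
      rw [mem_normalizer_iff]
      intro t
      constructor
      · intro ht
        exact conj_mem_centralizer hg ht
      · intro ht
        have := conj_mem_centralizer (inv_mem hg) ht
        simpa [mul_assoc] using this)
    have hxN : x ∈ normalizer (Q : Set G) := centralizer_le_normalizer _ hx
    have hxgQ : x * g ∈ normalizer (Q : Set G) := mul_mem hxN hg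
    have hxgR : x * g ∈ normalizer ((T ⊔ Q : Subgroup G) : Set G) := mem_normalizer_sup hxg hxgQ
    obtain ⟨n, hn⟩ := hgood _ hxgR
    refine ⟨n, ?_⟩
    have h1 : (x * g) ^ p ^ n ∈ centralizer (Q : Set G) := centralizer_antitone le_sup_right hn
    have h2 : ((⟨x, hxN⟩ : normalizer (Q : Set G)) * ⟨g, hg⟩) ^ p ^ n ∈
        (centralizer (Q : Set G)).subgroupOf (normalizer (Q : Set G)) := by
      rw [mem_subgroupOf]
      exact h1
    have h3 := pow_mem_of_mul_mem (mem_subgroupOf.2 hx) h2
    rw [mem_subgroupOf] at h3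
    exact h3

/-- The subgroup QC_G(Q) of N_G(Q). -/
def core (Q : Subgroup G) : Subgroup (normalizer (Q : Set G)) :=
  Q.subgroupOf (normalizer (Q : Set G)) ⊔
    (centralizer (Q : Set G)).subgroupOf (normalizer (Q : Set G))

instance core_normal (Q : Subgroup G) : (core Q).Normal := by
  unfold core
  infer_instance

theorem local_isPGroup {p : ℕ} [Fact p.Prime] [Finite G] {Q : Subgroup G}
    (hQ : IsPGroup p Q)
    (hmax : ∀ T : Subgroup G, IsPGroup p T → Nat.card Q < Nat.card T → Good p T)
    (V : Subgroup (normalizer (Q : Set G) ⧸ core Q)) (hV : IsPGroup p V) (hV0 : V ≠ ⊥) :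
    IsPGroup p (normalizer (V : Set (normalizer (Q : Set G) ⧸ core Q))) := by
  have hpp : p.Prime := Fact.out
  let N := normalizer (Q : Set G)
  let π : N →* N ⧸ core Q := QuotientGroup.mk' (core Q)
  have hπ1 : ∀ y : N, (y : G) ∈ Q → π y = 1 := fun y hy =>
    (QuotientGroup.eq_one_iff y).2 (le_sup_left (α := Subgroup N) (mem_subgroupOf.2 hy))
  have hπ2 : ∀ y : N, (y : G) ∈ centralizer (Q : Set G) → π y = 1 := fun y hy =>
    (QuotientGroup.eq_one_iff y).2 (le_sup_right (α := Subgroup N) (mem_subgroupOf.2 hy))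
  let U : Subgroup N := V.comap π
  let X : Subgroup G := U.map N.subtype
  have hXN : X ≤ N := map_subtype_le _
  obtain ⟨T, hTX, hTp, hTn, hTc⟩ := exists_sylow_in p X
  have hQX : Q ≤ X := by
    intro q hq
    refine ⟨⟨q, le_normalizer hq⟩, ?_, rfl⟩
    change π _ ∈ V
    rw [hπ1 _ hq]
    exact one_mem V
  have hQT : Q ≤ T := by
    obtain ⟨x, hx, hxt⟩ := hTc Q hQX hQ
    intro q hq
    have h1 : x⁻¹ * q * x ∈ Q := by
      have := (mem_normalizer_iff.1 (inv_mem (hXN hx)) q).1 hq
      simpa using this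
    have h2 := hxt _ h1
    simpa [mul_assoc] using h2
  have hTQ : ¬ T ≤ Q := by
    intro hTQ
    apply hV0
    rw [eq_bot_iff]
    intro v hv
    rw [mem_bot]
    by_contra hv1
    obtain ⟨u, rfl⟩ := QuotientGroup.mk'_surjective (core Q) v
    have hu : u ∈ U := hv
    -- the p-part of u
    obtain ⟨a, m, hm, hord⟩ := Nat.exists_eq_pow_mul_and_not_dvd (orderOf_pos u).ne' p hpp.ne_one
    have hpow : (u ^ m) ^ p ^ a = 1 := by
      rw [← pow_mul, mul_comm, ← hord, pow_orderOf_eq_one]
    have hz : IsPGroup p (zpowers ((u ^ m : N) : G)) := by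
      intro z
      obtain ⟨z, hz⟩ := z
      obtain ⟨i, rfl⟩ := mem_zpowers_iff.1 hz
      refine ⟨a, Subtype.ext ?_⟩
      change (((u ^ m : N) : G) ^ i) ^ p ^ a = 1
      rw [← zpow_natCast, ← zpow_mul, mul_comm, zpow_mul, zpow_natCast]
      have : ((u ^ m : N) : G) ^ p ^ a = 1 := by
        rw [← Subgroup.coe_pow, hpow]
        rfl
      rw [this, one_zpow]
    have hzX : zpowers ((u ^ m : N) : G) ≤ X := by
      rw [zpowers_le]
      exact ⟨u ^ m, pow_mem hu m, rfl⟩
    obtain ⟨x, hx, hxt⟩ := hTc _ hzX hz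
    have h1 := hTQ (hxt _ (mem_zpowers _))
    have h2 : ((u ^ m : N) : G) ∈ Q := (mem_normalizer_iff.1 (hXN hx) _).2 h1
    have h3 : (π u) ^ m = 1 := by
      rw [← map_pow]
      exact hπ1 _ h2
    obtain ⟨j, hj⟩ := hV ⟨_, hv⟩
    have hj' : (π u) ^ p ^ j = 1 := congrArg Subtype.val hj
    have hco : Nat.Coprime m (p ^ j) := Nat.Coprime.pow_right j (hpp.coprime_iff_not_dvd.2 hm).symm
    have h4 : orderOf (π u) ∣ 1 := by
      rw [← Nat.Coprime.gcd_eq_one hco]
      exact Nat.dvd_gcd (orderOf_dvd_of_pow_eq_one h3) (orderOf_dvd_of_pow_eq_one hj')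
    exact hv1 (orderOf_eq_one_iff.1 (Nat.dvd_one.1 h4))
  have hgood : Good p T := hmax T hTp (card_lt_of_lt (lt_of_le_not_ge hQT hTQ))
  rintro ⟨g', hg'⟩
  obtain ⟨g, rfl⟩ := QuotientGroup.mk'_surjective (core Q) g'
  have hgX : (g : G) ∈ normalizer (X : Set G) := by
    have hstep : ∀ h : N, π h ∈ normalizer (V : Set (N ⧸ core Q)) → ∀ t ∈ X,
        (h : G) * t * (h : G)⁻¹ ∈ X := by
      rintro h hh _ ⟨t, ht, rfl⟩
      refine ⟨h * t * h⁻¹, ?_, rfl⟩
      change π (h * t * h⁻¹) ∈ V
      rw [map_mul, map_mul, map_inv]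
      exact (mem_normalizer_iff.1 hh (π t)).1 ht
    rw [mem_normalizer_iff]
    intro t
    constructor
    · exact hstep g hg' t
    · intro ht
      have := hstep g⁻¹ (by rw [map_inv]; exact inv_mem hg') _ ht
      simpa [mul_assoc] using this
  obtain ⟨x, hx, hxg⟩ := hTn g hgX
  obtain ⟨n, hn⟩ := hgood _ hxg
  have hn' : (x * g) ^ p ^ n ∈ centralizer (Q : Set G) := centralizer_antitone hQT hn
  obtain ⟨x', hx', hxx'⟩ := hx
  have h5 : (π x' * π g) ^ p ^ n = 1 := by
    rw [← map_mul, ← map_pow]
    apply hπ2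
    rw [Subgroup.coe_pow, Subgroup.coe_mul]
    rw [← hxx'] at hn'
    exact hn'
  have hxV : π x' ∈ V := hx'
  let M := normalizer (V : Set (N ⧸ core Q))
  have h6 : ((⟨π x', le_normalizer hxV⟩ : M) * ⟨π g, hg'⟩) ^ p ^ n ∈ V.subgroupOf M := by
    rw [mem_subgroupOf]
    have h7 : (((⟨π x', le_normalizer hxV⟩ : M) * ⟨π g, hg'⟩) ^ p ^ n : M) =
        ((π x' * π g) ^ p ^ n : N ⧸ core Q) := rfl
    rw [h7, h5]
    exact one_mem V
  have h8 := pow_mem_of_mul_mem (E := V.subgroupOf M) (mem_subgroupOf.2 hxV) h6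
  rw [mem_subgroupOf] at h8
  obtain ⟨j, hj⟩ := hV ⟨_, h8⟩
  refine ⟨n + j, Subtype.ext ?_⟩
  have hj' := congrArg Subtype.val hj
  change (π g) ^ p ^ (n + j) = 1
  rw [pow_add, pow_mul]
  exact hj'

theorem not_isPGroup_quot {p : ℕ} {Q : Subgroup G} (hQ : IsPGroup p Q) (hbad : ¬ Good p Q) :
    ¬ IsPGroup p (normalizer (Q : Set G) ⧸ core Q) := by
  intro h
  apply hbad
  intro g hg
  obtain ⟨j, hj⟩ := h (QuotientGroup.mk ⟨g, hg⟩)
  rw [← QuotientGroup.mk_pow, QuotientGroup.eq_one_iff, core, mem_sup_of_normal_right] at hj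
  obtain ⟨q, hq, c, hc, hqc⟩ := hj
  rw [mem_subgroupOf] at hq hc
  obtain ⟨m, hm⟩ := hQ ⟨_, hq⟩
  have hm' : (q : G) ^ p ^ m = 1 := congrArg Subtype.val hm
  refine ⟨j + m, ?_⟩
  have h1 : g ^ p ^ j = (q : G) * c := by
    have := congrArg Subtype.val hqc
    simpa using this.symm
  have h2 : Commute (q : G) (c : G) := mem_centralizer_iff.1 hc q hq
  rw [pow_add, pow_mul, h1, h2.mul_pow, hm', one_mul]
  exact pow_mem hc _

end Vale.Agent.P179
end
end

section

section

/-! Weights belonging to the principal block of a p-nilpotent group. -/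

namespace Vale.Agent.P179

open Subgroup

universe u v

variable {k : Type v} [Field k] {p : ℕ} [Fact p.Prime] [CharP k p]
  (rho : integralClosure ℤ ℂ →+* k) {G : Type u} [Group G] [Finite G]

omit [CharP k p] [Fact p.Prime] in
theorem belongs_iff {B : MonoidAlgebra k G} (hB : IsBlock k G B) (h1 : aug B = 1)
    (w : Weight p G) : w.Belongs rho B ↔ ∀ z ∈ Set.center (MonoidAlgebra k G),
      blockChar rho w.infl (resCoeff (normalizer (w.Q : Set G)) z) = aug z := by
  constructor
  · intro h z hz
    have h2 : z • (Submodule.Quotient.mk (p := RingHom.ker (aug : MonoidAlgebra k G →ₐ[k] k)) 1) =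
        algebraMap k (MonoidAlgebra k G)
          (blockChar rho w.infl (resCoeff (normalizer (w.Q : Set G)) z)) •
        (Submodule.Quotient.mk (p := RingHom.ker (aug : MonoidAlgebra k G →ₐ[k] k)) 1) :=
      h (trivSimple h1) z hz
        (Submodule.Quotient.mk (p := RingHom.ker (aug : MonoidAlgebra k G →ₐ[k] k)) 1)
    have h3 := smul_ker_aug z
      (Submodule.Quotient.mk (p := RingHom.ker (aug : MonoidAlgebra k G →ₐ[k] k)) 1)
    have h4 := h3.symm.trans h2
    rw [← Submodule.Quotient.mk_smul, ← Submodule.Quotient.mk_smul, Submodule.Quotient.eq,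
      RingHom.mem_ker] at h4
    simp only [smul_eq_mul, mul_one, map_sub, AlgHom.commutes] at h4
    exact (sub_eq_zero.1 h4).symm
  · intro h m z hz x
    rw [h z hz]
    exact central_smul hB h1 m hz x

/-- The trivial character is irreducible. -/
theorem isIrrChar_one (H : Type*) [Group H] : IsIrrChar H (fun _ => 1) := by
  refine ⟨1, Representation.trivial ℂ H (Fin 1 → ℂ), ?_, ?_⟩
  · apply irr_of_forall
    intro W _
    have h1 : Module.finrank ℂ (Fin 1 → ℂ) = 1 := by simp
    have h2 : IsSimpleModule ℂ (Fin 1 → ℂ) := isSimpleModule_iff_finrank_eq_one.2 h1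
    exact eq_bot_or_eq_top W
  · ext h
    have : Representation.trivial ℂ H (Fin 1 → ℂ) h = 1 := rfl
    simp [Representation.character, this]

/-- The index of a Sylow subgroup in its normalizer is prime to p. -/
theorem not_dvd_card_quot_sylow (P : Sylow p G) :
    ¬ p ∣ Nat.card (normalizer ((P : Subgroup G) : Set G) ⧸
      (P : Subgroup G).subgroupOf (normalizer ((P : Subgroup G) : Set G))) := by
  intro h
  apply P.not_dvd_index
  refine h.trans ?_
  change (P : Subgroup G).relIndex (normalizer ((P : Subgroup G) : Set G)) ∣ _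
  exact Subgroup.relIndex_dvd_index_of_le le_normalizer

/-- The weight (P, 1) for a Sylow p-subgroup P. -/
noncomputable def sylowWeight (P : Sylow p G) : Weight p G where
  Q := P
  phi := fun _ => 1
  isPGroup := P.isPGroup'
  irr := isIrrChar_one _
  defectZero := ⟨1, by simp, by
    rw [Nat.factorization_one, Nat.factorization_eq_zero_of_not_dvd (not_dvd_card_quot_sylow P)]
    rfl⟩

theorem sylowWeight_belongs {B : MonoidAlgebra k G} (hB : IsBlock k G B) (h1 : aug B = 1)
    (P : Sylow p G) : (sylowWeight P).Belongs rho B := by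
  rw [belongs_iff rho hB h1]
  intro z hz
  exact blockChar_eq_aug rho _ (fun x _ => rfl) hz

/-- An irreducible representation of p-power image whose degree has full p-part is trivial. -/
theorem trivial_of_image {Γ : Type*} [Group Γ] [Finite Γ] {n : ℕ}
    (σ : Representation ℂ Γ (Fin n → ℂ)) [hσ : σ.IsIrreducible]
    (hK : ∀ g : Γ, ∃ j : ℕ, σ (g ^ p ^ j) = 1)
    (hd : n.factorization p = (Nat.card Γ).factorization p) :
    (∀ g, σ g = 1) ∧ n = 1 := by
  classical
  have := Fintype.ofFinite Γ
  have hpp : p.Prime := Fact.out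
  have hV := irr_nontrivial σ
  obtain ⟨v, hv⟩ := exists_ne (0 : Fin n → ℂ)
  rcases sum_normal σ ⊤ with h0 | h0
  · exfalso
    let K : Subgroup Γ := MonoidHom.ker (σ : Γ →* ((Fin n → ℂ) →ₗ[ℂ] (Fin n → ℂ)))
    have hKn : K.Normal := MonoidHom.normal_ker _
    have hmemK : ∀ g, g ∈ K ↔ σ g = 1 := fun g => MonoidHom.mem_ker
    have hpg : IsPGroup p (Γ ⧸ K) := by
      intro x
      obtain ⟨g, rfl⟩ := QuotientGroup.mk_surjective x
      obtain ⟨j, hj⟩ := hK g
      exact ⟨j, by
        rw [← QuotientGroup.mk_pow]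
        exact (QuotientGroup.eq_one_iff _).2 ((hmemK _).2 hj)⟩
    obtain ⟨b, hb⟩ := IsPGroup.iff_card.1 hpg
    have hn0 : n ≠ 0 := by
      rintro rfl
      exact hv (Subsingleton.elim _ _)
    have hdvd : p ^ b ∣ n := by
      rw [hpp.pow_dvd_iff_le_factorization hn0, hd,
        ← hpp.pow_dvd_iff_le_factorization Nat.card_pos.ne', ← hb]
      exact Subgroup.card_quotient_dvd_card K
    have hle : p ^ b ≤ n := Nat.le_of_dvd (Nat.pos_of_ne_zero hn0) hdvd
    have := Fintype.ofFinite (Γ ⧸ K)
    let s : Γ ⧸ K → (Fin n → ℂ) := fun r => σ r.out v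
    have hs : ∀ h : Γ, s (QuotientGroup.mk h) = σ h v := by
      intro h
      obtain ⟨κ, hκ⟩ := QuotientGroup.mk_out_eq_mul K h
      simp only [s]
      rw [hκ, map_mul, (hmemK _).1 κ.2, mul_one]
    have hspan : Submodule.span ℂ (Set.range s) = ⊤ := by
      rcases irr_bot_or_top σ (Submodule.span ℂ (Set.range s)) (fun g x hx => by
        induction hx using Submodule.span_induction with
        | mem x hx =>
          obtain ⟨r, rfl⟩ := hx
          obtain ⟨h, rfl⟩ := QuotientGroup.mk_surjective r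
          rw [hs, ← Module.End.mul_apply, ← map_mul, ← hs]
          exact Submodule.subset_span ⟨_, rfl⟩
        | zero => rw [map_zero]; exact zero_mem _
        | add x y _ _ hx hy => rw [map_add]; exact add_mem hx hy
        | smul c x _ hx => rw [map_smul]; exact Submodule.smul_mem _ c hx) with h | h
      · exfalso
        have h2 : v ∈ Submodule.span ℂ (Set.range s) :=
          Submodule.subset_span ⟨QuotientGroup.mk 1, by rw [hs, map_one]; rfl⟩
        rw [h, Submodule.mem_bot] at h2
        exact hv h2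
      · exact h
    have hcard : Fintype.card (Γ ⧸ K) = Module.finrank ℂ (Fin n → ℂ) := by
      apply le_antisymm
      · rw [← Nat.card_eq_fintype_card, hb]
        simpa using hle
      · have h2 := finrank_range_le_card (R := ℂ) s
        rw [Set.finrank, hspan, finrank_top] at h2
        exact h2
    have hli := linearIndependent_of_top_le_span_of_card_eq_finrank hspan.ge hcard
    rw [Fintype.linearIndependent_iff] at hli
    have hsum : ∑ r : Γ ⧸ K, ((Finset.univ.filter (fun g : Γ =>
        (QuotientGroup.mk g : Γ ⧸ K) = r)).card : ℂ) • s r = 0 := by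
      have h2 : ∑ g : Γ, s (QuotientGroup.mk g) = 0 := by
        rw [← h0 v]
        rw [← Equiv.sum_comp (Subgroup.topEquiv (G := Γ)).toEquiv.symm]
        refine Finset.sum_congr rfl fun g _ => ?_
        rw [hs]
        rfl
      rw [← h2, ← Finset.sum_fiberwise (s := Finset.univ)
        (g := fun g : Γ => (QuotientGroup.mk g : Γ ⧸ K))
        (f := fun g : Γ => s (QuotientGroup.mk g))]
      refine Finset.sum_congr rfl fun r _ => ?_
      rw [Finset.sum_congr rfl (g := fun _ => s r)
        (fun x hx => by rw [(Finset.mem_filter.1 hx).2]), Finset.sum_const,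
        ← Nat.cast_smul_eq_nsmul ℂ]
    have h3 := hli _ hsum (QuotientGroup.mk 1)
    rw [Nat.cast_eq_zero, Finset.card_eq_zero] at h3
    have h4 : (1 : Γ) ∈ Finset.univ.filter (fun g : Γ =>
        (QuotientGroup.mk g : Γ ⧸ K) = QuotientGroup.mk 1) := by simp
    rw [h3] at h4
    simp at h4
  · have h1 : ∀ g, σ g = 1 := fun g => LinearMap.ext fun v => h0 g (mem_top g) v
    refine ⟨h1, ?_⟩
    have h2 : ∀ x : Fin n → ℂ, ∃ c : ℂ, c • v = x := by
      intro x
      rcases irr_bot_or_top σ (Submodule.span ℂ {v}) (fun g x hx => by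
        rw [h1]; exact hx) with h | h
      · exact absurd (Submodule.span_singleton_eq_bot.1 h) hv
      · have : x ∈ Submodule.span ℂ {v} := by rw [h]; trivial
        exact Submodule.mem_span_singleton.1 this
    have h3 := finrank_eq_one_iff_of_nonzero' v hv |>.2 h2
    simpa using h3

omit [Finite G] [CharP k p] [Fact p.Prime] in
theorem coeff_sum_subgroup (L : Subgroup G) [Fintype L] [DecidablePred (· ∈ L)] (g : G) :
    (∑ x : L, MonoidAlgebra.single (x : G) (1 : k)).coeff g = if g ∈ L then 1 else 0 := by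
  classical
  rw [MonoidAlgebra.coeff_sum, Finsupp.finsetSum_apply]
  simp only [MonoidAlgebra.coeff_single]
  split_ifs with h
  · rw [Finset.sum_eq_single (⟨g, h⟩ : L)]
    · simp
    · intro b _ hb
      rw [Finsupp.single_apply, if_neg]
      intro h'
      exact hb (Subtype.ext h')
    · simp
  · apply Finset.sum_eq_zero
    intro x _
    rw [Finsupp.single_apply, if_neg]
    rintro rfl
    exact h x.2

/-- In a p-nilpotent group only the trivial character occurs in the weights of the principal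
block. -/
theorem phi_eq_one_of_belongs {B : MonoidAlgebra k G} (hB : IsBlock k G B) (h1 : aug B = 1)
    {L : Subgroup G} (hLn : L.Normal) (hLp : ¬ p ∣ Nat.card L)
    (hL : ∀ g : G, ∃ n : ℕ, g ^ p ^ n ∈ L) (w : Weight p G) (hw : w.Belongs rho B) :
    (∀ x, w.phi x = 1) ∧ ¬ p ∣ Nat.card (normalizer (w.Q : Set G) ⧸
      w.Q.subgroupOf (normalizer (w.Q : Set G))) := by
  classical
  have := Fintype.ofFinite G
  have := Fintype.ofFinite L
  let N := normalizer (w.Q : Set G)
  let Q' := w.Q.subgroupOf N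
  have : Fintype N := Fintype.ofFinite _
  have : Fintype (ConjClasses N) := Fintype.ofFinite _
  let D : Subgroup N := L.subgroupOf N
  have : Fintype D := Fintype.ofFinite _
  have hbc := (belongs_iff rho hB h1 w).1 hw _ (sum_subgroup_mem_center (k := k) L)
  rw [aug_sum_subgroup] at hbc
  have hcard : (Nat.card L : k) ≠ 0 := by
    rwa [Ne, CharP.cast_eq_zero_iff k p]
  obtain ⟨n, σ, hσ, hchar⟩ := w.irr
  let π : N →* N ⧸ Q' := QuotientGroup.mk' Q'
  have hπ : Function.Surjective π := QuotientGroup.mk'_surjective Q'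
  have hσ' := irr_comp σ π hπ
  have hinfl : ∀ x, w.infl x = Representation.character (σ.comp π) x := by
    intro x
    change w.phi _ = _
    rw [← hchar]
    rfl
  have hirr : IsIrrChar N w.infl := by
    have := isIrrChar_comp π hπ w.irr
    exact this
  have hf1 : w.infl 1 ≠ 0 := irr_one_ne_zero hirr
  rcases sum_normal (σ.comp π : Representation ℂ N (Fin n → ℂ)) D with h0 | h0
  · exfalso
    have hsum : ∑ d : D, w.infl (d : N) = 0 := by
      have h2 : LinearMap.trace ℂ (Fin n → ℂ)
          (∑ d : D, (σ.comp π : Representation ℂ N (Fin n → ℂ)) (d : N)) = 0 := by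
        have : (∑ d : D, (σ.comp π : Representation ℂ N (Fin n → ℂ)) (d : N)) = 0 := by
          apply LinearMap.ext
          intro v
          rw [LinearMap.sum_apply, h0 v, LinearMap.zero_apply]
        rw [this, map_zero]
      rw [map_sum] at h2
      rw [← h2]
      exact Finset.sum_congr rfl fun d _ => hinfl d
    let F : N → ℂ := fun x => if (x : G) ∈ L then w.infl x / w.infl 1 else 0
    have hF : ∀ g x, F (g * x * g⁻¹) = F x := by
      intro g x
      have h2 : ((g * x * g⁻¹ : N) : G) ∈ L ↔ (x : G) ∈ L := by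
        constructor
        · intro h
          have := hLn.conj_mem _ h (g : G)⁻¹
          simpa [mul_assoc] using this
        · intro h
          exact hLn.conj_mem _ h (g : G)
      simp only [F, h2, irr_conj hirr]
    have hFsum : ∑ x, F x = 0 := by
      have h2 : ∑ x, F x = ∑ x ∈ Finset.univ.filter (fun x : N => (x : G) ∈ L),
          w.infl x / w.infl 1 := by
        rw [Finset.sum_filter]
      have h3 := Finset.sum_subtype (F := (inferInstance : Fintype D))
        (Finset.univ.filter (fun x : N => (x : G) ∈ L)) (p := (· ∈ D))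
        (by simp [D, mem_subgroupOf]) (fun x => w.infl x / w.infl 1)
      rw [h2, h3, ← Finset.sum_div]
      have h4 : ∑ a : D, w.infl (a : N) = 0 := hsum
      rw [h4, zero_div]
    rw [sum_classes F hF] at hFsum
    have hint : ∀ C : ConjClasses N, IsIntegral ℤ ((Nat.card C.carrier : ℂ) * F C.out) := by
      intro C
      by_cases hC : ((Quotient.out C : N) : G) ∈ L
      · simp only [F, if_pos hC]
        rw [← mul_div_assoc]
        exact isIntegral_isIrrChar hirr C _ (mem_carrier_out C)
      · simp only [F, if_neg hC, mul_zero]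
        exact isIntegral_zero
    have h5 := red_sum rho Finset.univ (fun C : ConjClasses N => (Nat.card C.carrier : ℂ) * F C.out)
      (fun C _ => hint C)
    have h6 : red rho (0 : ℂ) = 0 := by
      have := red_natCast rho 0
      simpa using this
    rw [hFsum, h6] at h5
    apply hcard
    rw [← hbc, h5, blockChar_eq_sum]
    refine Finset.sum_congr rfl fun C _ => ?_
    rw [resCoeff_coeff, coeff_sum_subgroup]
    by_cases hC : ((Quotient.out C : N) : G) ∈ L
    · rw [if_pos hC, one_mul]
      simp only [F, if_pos hC]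
      rw [← mul_div_assoc]
    · rw [if_neg hC, zero_mul]
      simp only [F, if_neg hC, mul_zero, h6]
  · have hK : ∀ g : N ⧸ Q', ∃ j : ℕ, σ (g ^ p ^ j) = 1 := by
      intro g
      obtain ⟨x, rfl⟩ := QuotientGroup.mk_surjective g
      obtain ⟨j, hj⟩ := hL (x : G)
      refine ⟨j, LinearMap.ext fun v => ?_⟩
      have h2 : x ^ p ^ j ∈ D := by
        rw [mem_subgroupOf]
        simpa using hj
      exact h0 _ h2 v
    have hdeg : w.phi 1 = n := by
      rw [← hchar, Representation.char_one]
      simp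
    obtain ⟨d, hd1, hd2⟩ := w.defectZero
    have hdn : d = n := by
      rw [hdeg] at hd1
      exact_mod_cast hd1.symm
    rw [hdn] at hd2
    obtain ⟨h2, h3⟩ := trivial_of_image σ hK hd2
    refine ⟨fun x => ?_, fun hdvd => ?_⟩
    · rw [← hchar]
      unfold Representation.character
      rw [h2, LinearMap.trace_one]
      simp [h3]
    · rw [h3, Nat.factorization_one] at hd2
      have h4 := (Fact.out : p.Prime).factorization_pos_of_dvd Nat.card_pos.ne' hdvd
      rw [← hd2] at h4
      exact absurd h4 (by simp)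

/-- A p-subgroup of index prime to p in its normalizer is a Sylow subgroup. -/
theorem exists_sylow_eq {Q : Subgroup G} (hQ : IsPGroup p Q)
    (h : ¬ p ∣ Nat.card (normalizer (Q : Set G) ⧸ Q.subgroupOf (normalizer (Q : Set G)))) :
    ∃ S : Sylow p G, (S : Subgroup G) = Q := by
  obtain ⟨S, hS⟩ := hQ.exists_le_sylow
  refine ⟨S, ?_⟩
  by_contra hne
  have hlt : Q < S := lt_of_le_of_ne hS (Ne.symm hne)
  obtain ⟨x, hxS, hxQ, hxN⟩ := exists_mem_normalizer S.isPGroup' hlt
  apply h
  obtain ⟨j, hj⟩ := S.isPGroup' ⟨x, hxS⟩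
  have hj' : x ^ p ^ j = 1 := congrArg Subtype.val hj
  let y : normalizer (Q : Set G) ⧸ Q.subgroupOf (normalizer (Q : Set G)) :=
    QuotientGroup.mk ⟨x, hxN⟩
  have hy1 : y ≠ 1 := by
    intro hy
    exact hxQ (mem_subgroupOf.1 ((QuotientGroup.eq_one_iff _).1 hy))
  have hy2 : y ^ p ^ j = 1 := by
    rw [← QuotientGroup.mk_pow]
    have : (⟨x, hxN⟩ : normalizer (Q : Set G)) ^ p ^ j = 1 := Subtype.ext hj'
    rw [this]
    rfl
  obtain ⟨i, -, hi⟩ := (Nat.dvd_prime_pow (Fact.out : p.Prime)).1 (orderOf_dvd_of_pow_eq_one hy2)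
  have hi0 : i ≠ 0 := by
    rintro rfl
    rw [pow_zero, orderOf_eq_one_iff] at hi
    exact hy1 hi
  exact ((dvd_pow_self p hi0).trans hi.symm.dvd).trans (orderOf_dvd_natCard y)

theorem numWeights_eq_one {B : MonoidAlgebra k G} (hB : IsBlock k G B) (h1 : aug B = 1)
    {L : Subgroup G} (hLn : L.Normal) (hLp : ¬ p ∣ Nat.card L)
    (hL : ∀ g : G, ∃ n : ℕ, g ^ p ^ n ∈ L) : numWeights p rho B = 1 := by
  rw [numWeights, Nat.card_eq_one_iff_unique]
  obtain ⟨P⟩ : Nonempty (Sylow p G) := inferInstance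
  refine ⟨⟨fun a b => ?_⟩, ⟨Quotient.mk _ ⟨sylowWeight P, sylowWeight_belongs rho hB h1 P⟩⟩⟩
  induction a using Quotient.inductionOn with | _ a
  induction b using Quotient.inductionOn with | _ b
  obtain ⟨ha, ha'⟩ := phi_eq_one_of_belongs rho hB h1 hLn hLp hL a.1 a.2
  obtain ⟨hb, hb'⟩ := phi_eq_one_of_belongs rho hB h1 hLn hLp hL b.1 b.2
  obtain ⟨S, hS⟩ := exists_sylow_eq a.1.isPGroup ha'
  obtain ⟨T, hT⟩ := exists_sylow_eq b.1.isPGroup hb'
  obtain ⟨g, hg⟩ := MulAction.exists_smul_eq G S T
  apply Quotient.sound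
  refine ⟨g, fun x => ?_, fun x y _ => ?_⟩
  · have h2 : x ∈ (T : Subgroup G) ↔ g⁻¹ * x * g ∈ (S : Subgroup G) := by
      rw [← hg, Sylow.coe_subgroup_smul, Subgroup.mem_pointwise_smul_iff_inv_smul_mem]
      simp [MulAut.smul_def]
    rw [hS, hT] at h2
    exact h2
  · change b.1.phi _ = a.1.phi _
    rw [ha, hb]

end Vale.Agent.P179
end
end

section

section

/-! A group that is not p-nilpotent has a second weight in the principal block. -/

namespace Vale.Agent.P179

open Subgroup

universe u v

/-- A finite group that is not a p-group but whose nontrivial p-local subgroups are p-groups has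
an irreducible character of p-defect zero that is not constant. -/
theorem exists_defect_zero {p : ℕ} [Fact p.Prime] {H : Type u} [Group H] [Finite H]
    (hloc : ∀ V : Subgroup H, IsPGroup p V → V ≠ ⊥ → IsPGroup p (normalizer (V : Set H)))
    (hH : ¬ IsPGroup p H) : ∃ (n : ℕ) (σ : Representation ℂ H (Fin n → ℂ)),
      σ.IsIrreducible ∧ n.factorization p = (Nat.card H).factorization p ∧
      ¬ ∀ h, σ.character h = 1 := by
  classical
  have hpp : p.Prime := Fact.out
  have hfrob : FrobCond p H := by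
    intro V hV g hg
    by_cases hV0 : V = ⊥
    · refine ⟨0, ?_⟩
      subst hV0
      rw [mem_centralizer_iff]
      intro h hh
      have : h = 1 := by simpa using hh
      rw [this]
      simp
    · obtain ⟨n, hn⟩ := hloc V hV hV0 ⟨g, hg⟩
      have hn' : g ^ p ^ n = 1 := congrArg Subtype.val hn
      exact ⟨n, by rw [hn']; exact one_mem _⟩
  obtain ⟨L, hLn, hLp, hL⟩ := exists_normal_complement _ H rfl hfrob
  have hL0 : L ≠ ⊥ := by
    rintro rfl
    exact hH fun h => by
      obtain ⟨n, hn⟩ := hL h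
      exact ⟨n, by simpa using hn⟩
  have := Fintype.ofFinite L
  obtain ⟨n, σ, hσ, h0⟩ := exists_irr_sum_zero L hL0
  obtain ⟨P⟩ : Nonempty (Sylow p H) := inferInstance
  have hfix : ∀ u ∈ (P : Subgroup H), u ≠ 1 → σ.character u = 0 := by
    intro u hu hu1
    apply character_eq_zero σ L h0 u
    intro d hd hdu
    have hV : IsPGroup p (zpowers u) := P.isPGroup'.to_le (by
      rw [zpowers_le]; exact hu)
    have hV0 : zpowers u ≠ ⊥ := by
      rw [Ne, zpowers_eq_bot]
      exact hu1
    have hdN : d ∈ normalizer ((zpowers u : Subgroup H) : Set H) := by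
      apply centralizer_le_normalizer
      rw [mem_centralizer_iff]
      intro h hh
      obtain ⟨i, rfl⟩ := mem_zpowers_iff.1 hh
      exact ((Commute.zpow_right (show Commute d u from hdu) i).eq).symm
    obtain ⟨j, hj⟩ := hloc _ hV hV0 ⟨d, hdN⟩
    have hj' : d ^ p ^ j = 1 := congrArg Subtype.val hj
    have h1 : orderOf d ∣ Nat.card L := Subgroup.orderOf_dvd_natCard L hd
    obtain ⟨i, -, hi⟩ := (Nat.dvd_prime_pow hpp).1 (orderOf_dvd_of_pow_eq_one hj')
    have hi0 : i = 0 := by
      by_contra hi0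
      exact hLp ((dvd_pow_self p hi0).trans (hi ▸ h1))
    rw [hi0, pow_zero] at hi
    exact orderOf_eq_one_iff.1 hi
  have hdvd1 : Nat.card P ∣ n := by
    have := card_dvd_finrank σ (P : Subgroup H) hfix
    simpa using this
  have hdvd2 : n ∣ Nat.card H := by
    have := finrank_dvd_card σ
    simpa using this
  have hV := irr_nontrivial σ
  have hn0 : n ≠ 0 := by
    rintro rfl
    exact not_subsingleton (Fin 0 → ℂ) inferInstance
  refine ⟨n, σ, hσ, ?_, ?_⟩
  · apply le_antisymm
    · exact (Nat.factorization_le_iff_dvd hn0 Nat.card_pos.ne').2 hdvd2 p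
    · rw [← hpp.pow_dvd_iff_le_factorization hn0]
      rw [← P.card_eq_multiplicity]
      exact hdvd1
  · intro hall
    have h1 : ∑ d : L, σ.character (d : H) = 0 := by
      have h2 : LinearMap.trace ℂ (Fin n → ℂ) (∑ d : L, σ (d : H)) = 0 := by
        have : (∑ d : L, σ (d : H)) = 0 := by
          apply LinearMap.ext
          intro v
          rw [LinearMap.sum_apply, h0 v, LinearMap.zero_apply]
        rw [this, map_zero]
      rw [map_sum] at h2
      exact h2
    simp only [hall] at h1
    simp at h1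

variable {k : Type v} [Field k] {p : ℕ} [Fact p.Prime] [CharP k p]
  (rho : integralClosure ℤ ℂ →+* k) {G : Type u} [Group G] [Finite G]

/-- If G is not p-nilpotent there is a weight of the principal block not conjugate to (P, 1). -/
theorem exists_second_weight {B : MonoidAlgebra k G} (hB : IsBlock k G B) (h1 : aug B = 1)
    (hG : ¬ FrobCond p G) (P : Sylow p G) : ∃ w : Weight p G, w.Belongs rho B ∧
      ¬ (weightSetoid p G).r (sylowWeight P) w := by
  classical
  have hpp : p.Prime := Fact.out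
  obtain ⟨Q, hQ, hbad, hmax⟩ := exists_maximal_bad hG
  have hcentric := centric_of_maximal_bad hQ hbad hmax
  let N := normalizer (Q : Set G)
  let Q' := Q.subgroupOf N
  obtain ⟨n, σ, hσ, hn, hne⟩ := exists_defect_zero (local_isPGroup hQ hmax)
    (not_isPGroup_quot hQ hbad)
  have hle : Q' ≤ core Q := le_sup_left
  let π : N ⧸ Q' →* N ⧸ core Q := QuotientGroup.map Q' (core Q) (MonoidHom.id N) (by
    rw [Subgroup.comap_id]; exact hle)
  have hπmk : ∀ x : N, π (QuotientGroup.mk x) = QuotientGroup.mk x := fun x => rfl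
  have hπ : Function.Surjective π := by
    intro y
    obtain ⟨x, rfl⟩ := QuotientGroup.mk_surjective y
    exact ⟨QuotientGroup.mk x, rfl⟩
  have hker : ¬ p ∣ Nat.card π.ker := by
    intro hdvd
    obtain ⟨y, hy⟩ := exists_prime_orderOf_dvd_card' p hdvd
    obtain ⟨x, hx⟩ := QuotientGroup.mk_surjective (y : N ⧸ Q')
    have hy1 : (y : N ⧸ Q') ≠ 1 := by
      intro h
      have : y = 1 := Subtype.ext h
      rw [this, orderOf_one] at hy
      exact hpp.one_lt.ne hy
    have hyp : (y : N ⧸ Q') ^ p = 1 := by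
      have := pow_orderOf_eq_one y
      rw [hy] at this
      exact congrArg Subtype.val this
    have hxcore : x ∈ core Q := by
      have h2 : π (y : N ⧸ Q') = 1 := y.2
      rw [← hx, hπmk, QuotientGroup.eq_one_iff] at h2
      exact h2
    rw [core, mem_sup_of_normal_right] at hxcore
    obtain ⟨q, hq, c, hc, hqc⟩ := hxcore
    have hyc : (y : N ⧸ Q') = QuotientGroup.mk c := by
      rw [← hx, ← hqc, QuotientGroup.mk_mul, (QuotientGroup.eq_one_iff q).2 hq, one_mul]
    have hcp : c ^ p ∈ Q' := by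
      rw [← QuotientGroup.eq_one_iff, QuotientGroup.mk_pow, ← hyc, hyp]
    rw [mem_subgroupOf] at hc hcp
    obtain ⟨j, hj⟩ := hQ ⟨_, hcp⟩
    have hj' : ((c : G) ^ p) ^ p ^ j = 1 := congrArg Subtype.val hj
    have hz : IsPGroup p (zpowers (c : G)) := by
      intro z
      obtain ⟨z, hz⟩ := z
      obtain ⟨i, rfl⟩ := mem_zpowers_iff.1 hz
      refine ⟨1 + j, Subtype.ext ?_⟩
      change ((c : G) ^ i) ^ p ^ (1 + j) = 1
      rw [← zpow_natCast, ← zpow_mul, mul_comm, zpow_mul, zpow_natCast, pow_add, pow_mul, pow_one,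
        hj', one_zpow]
    have hcQ : (c : G) ∈ Q := hcentric _ hz (by rw [zpowers_le]; exact hc) (mem_zpowers _)
    apply hy1
    rw [hyc, QuotientGroup.eq_one_iff]
    exact mem_subgroupOf.2 hcQ
  have hcardN : Nat.card (N ⧸ Q') = Nat.card (N ⧸ core Q) * Nat.card π.ker := by
    rw [Subgroup.card_eq_card_quotient_mul_card_subgroup π.ker]
    congr 1
    exact Nat.card_congr (QuotientGroup.quotientKerEquivOfSurjective π hπ).toEquiv
  have hirr := irr_comp σ π hπ
  let w : Weight p G :=
    { Q := Q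
      phi := Representation.character (σ.comp π : Representation ℂ (N ⧸ Q') (Fin n → ℂ))
      isPGroup := hQ
      irr := isIrrChar_of_rep (σ.comp π : Representation ℂ (N ⧸ Q') (Fin n → ℂ))
      defectZero := ⟨n, by
        rw [Representation.char_one]
        simp, by
        change _ = (Nat.card (N ⧸ Q')).factorization p
        rw [hn, hcardN, Nat.factorization_mul Nat.card_pos.ne' Nat.card_pos.ne',
          Finsupp.add_apply, Nat.factorization_eq_zero_of_not_dvd hker, add_zero]⟩ }
  have hphi : ∀ x : N, w.infl x = σ.character (QuotientGroup.mk x) := fun x => rfl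
  refine ⟨w, ?_, ?_⟩
  · rw [belongs_iff rho hB h1]
    intro z hz
    refine blockChar_eq_aug rho w (fun x hx => ?_) hz
    rw [hphi, hphi]
    congr 1
    rw [QuotientGroup.mk_one]
    exact (QuotientGroup.eq_one_iff x).2 (le_sup_right (α := Subgroup N) (mem_subgroupOf.2 hx))
  · rintro ⟨g, hgQ, hg⟩
    apply hne
    intro h
    obtain ⟨y, rfl⟩ := QuotientGroup.mk_surjective h
    rw [← hphi]
    have hx : g⁻¹ * (y : G) * g ∈ normalizer ((P : Subgroup G) : Set G) := by
      rw [mem_normalizer_iff]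
      intro t
      have h2 := hgQ (g * t * g⁻¹)
      have h3 := hgQ (g * (g⁻¹ * (y : G) * g * t * (g⁻¹ * (y : G) * g)⁻¹) * g⁻¹)
      have h4 : g⁻¹ * (g * t * g⁻¹) * g = t := by group
      have h5 : g⁻¹ * (g * (g⁻¹ * (y : G) * g * t * (g⁻¹ * (y : G) * g)⁻¹) * g⁻¹) * g =
        g⁻¹ * (y : G) * g * t * (g⁻¹ * (y : G) * g)⁻¹ := by group
      rw [h4] at h2
      rw [h5] at h3
      have h6 : g * (g⁻¹ * (y : G) * g * t * (g⁻¹ * (y : G) * g)⁻¹) * g⁻¹ =
        (y : G) * (g * t * g⁻¹) * (y : G)⁻¹ := by group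
      rw [h6] at h3
      have h7 := mem_normalizer_iff.1 y.2 (g * t * g⁻¹)
      exact (h2.symm.trans h7).trans h3
    exact hg ⟨_, hx⟩ y (by
      change (y : G) = g * (g⁻¹ * (y : G) * g) * g⁻¹
      group)

theorem frobCond_of_numWeights {B : MonoidAlgebra k G} (hB : IsBlock k G B) (h1 : aug B = 1)
    (hw : numWeights p rho B = 1) : FrobCond p G := by
  by_contra hG
  obtain ⟨P⟩ : Nonempty (Sylow p G) := inferInstance
  obtain ⟨w, hwB, hw2⟩ := exists_second_weight rho hB h1 hG P
  rw [numWeights, Nat.card_eq_one_iff_unique] at hw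
  obtain ⟨hs, -⟩ := hw
  have h2 := Quotient.exact (Subsingleton.elim
    (Quotient.mk ((weightSetoid p G).comap
      (Subtype.val : {w : Weight p G // w.Belongs rho B} → Weight p G))
      ⟨sylowWeight P, sylowWeight_belongs rho hB h1 P⟩)
    (Quotient.mk _ ⟨w, hwB⟩))
  exact hw2 h2

end Vale.Agent.P179
end
end

section

section

/-! The principal block has one weight iff it has one simple module iff G is p-nilpotent. -/

namespace Vale.Agent.P179

open Subgroup

universe u v

section

variable {p : ℕ} [Fact p.Prime] {G : Type u} [Group G] [Finite G]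

theorem pNilpotent_iff : PNilpotent p G ↔
    ∃ L : Subgroup G, L.Normal ∧ ¬ p ∣ Nat.card L ∧ ∀ g : G, ∃ n : ℕ, g ^ p ^ n ∈ L := by
  constructor
  · rintro ⟨L, hLn, hLp, n, hn⟩
    refine ⟨L, hLn, hLp, fun g => ⟨n, ?_⟩⟩
    rw [← hn]
    exact Subgroup.pow_index_mem L g
  · rintro ⟨L, hLn, hLp, hL⟩
    refine ⟨L, hLn, hLp, ?_⟩
    have h1 : IsPGroup p (G ⧸ L) := by
      intro x
      obtain ⟨g, rfl⟩ := QuotientGroup.mk_surjective x
      obtain ⟨n, hn⟩ := hL g
      exact ⟨n, by rw [← QuotientGroup.mk_pow]; exact (QuotientGroup.eq_one_iff _).2 hn⟩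
    exact IsPGroup.iff_card.1 h1

variable {k : Type v} [Field k] [CharP k p]

theorem numSimple_iff {B : MonoidAlgebra k G} (hB : IsBlock k G B) (hpr : IsPrincipal B) :
    numSimple B = 1 ↔ PNilpotent p G := by
  have h1 : aug B = 1 := (aug_eq_sum B).trans hpr
  rw [numSimple_eq_one_iff h1, pNilpotent_iff]
  constructor
  · exact pNilpotent_of_eq_ker hB h1
  · rintro ⟨L, hLn, hLp, hL⟩ m
    exact eq_ker_of_pNilpotent hB h1 hLn hLp hL m

theorem numWeights_iff (rho : integralClosure ℤ ℂ →+* k) {B : MonoidAlgebra k G}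
    (hB : IsBlock k G B) (hpr : IsPrincipal B) :
    numWeights p rho B = 1 ↔ PNilpotent p G := by
  have h1 : aug B = 1 := (aug_eq_sum B).trans hpr
  rw [pNilpotent_iff]
  constructor
  · intro h
    exact exists_normal_complement _ G rfl (frobCond_of_numWeights rho hB h1 h)
  · rintro ⟨L, hLn, hLp, hL⟩
    exact numWeights_eq_one rho hB h1 hLn hLp hL

end

end Vale.Agent.P179
end
end

section

section

/-! Existence and uniqueness of the principal block. -/

namespace Vale.Agent.P179

variable {k : Type*} [Field k] {G : Type*} [Group G]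

theorem exists_principal [Finite G] : ∃ B : MonoidAlgebra k G, IsBlock k G B ∧ aug B = 1 := by
  classical
  have hex : ∃ n : ℕ, ∃ e : MonoidAlgebra k G, e ∈ Set.center (MonoidAlgebra k G) ∧ e * e = e ∧
      aug e = 1 ∧ Module.finrank k (LinearMap.range (LinearMap.mulLeft k e)) = n :=
    ⟨_, 1, Set.one_mem_center, by simp, by simp, rfl⟩
  obtain ⟨e, hec, hee, he1, hen⟩ := Nat.find_spec hex
  refine ⟨e, ⟨hec, ?_, hee, ?_⟩, he1⟩
  · rintro rfl
    simp at he1
  have key : ∀ a b : MonoidAlgebra k G, a ∈ Set.center (MonoidAlgebra k G) →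
      b ∈ Set.center (MonoidAlgebra k G) → a * a = a → b * b = b → a * b = 0 → a + b = e →
      aug a = 1 → b = 0 := by
    intro a b ha hb haa hbb hab habe ha1
    by_contra hb0
    have hba : b * a = 0 := by rw [← ((Set.mem_center_iff.1 ha).comm b).eq, hab]
    have hlt : LinearMap.range (LinearMap.mulLeft k a) < LinearMap.range (LinearMap.mulLeft k e) := by
      rw [SetLike.lt_iff_le_and_exists]
      refine ⟨?_, b, ⟨b, ?_⟩, ?_⟩
      · rintro _ ⟨x, rfl⟩
        refine ⟨a * x, ?_⟩
        simp only [LinearMap.mulLeft_apply]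
        rw [← habe, add_mul, ← mul_assoc, ← mul_assoc, haa, hba, zero_mul, add_zero]
      · simp only [LinearMap.mulLeft_apply]
        rw [← habe, add_mul, hab, hbb, zero_add]
      · rintro ⟨x, hx⟩
        simp only [LinearMap.mulLeft_apply] at hx
        apply hb0
        rw [← hbb]
        nth_rewrite 2 [← hx]
        rw [← mul_assoc, hba, zero_mul]
    have h2 := Submodule.finrank_lt_finrank_of_lt hlt
    rw [hen] at h2
    exact Nat.find_min hex h2 ⟨a, ha, haa, ha1, rfl⟩
  intro a ha b hb haa hbb hab habe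
  have h1 : aug a + aug b = 1 := by rw [← map_add, habe, he1]
  have h2 : aug a * aug a = aug a := by rw [← map_mul, haa]
  have h3 : aug a = 0 ∨ aug a = 1 := by
    rcases eq_or_ne (aug a) 0 with h | h
    · exact Or.inl h
    · exact Or.inr (mul_left_cancel₀ h (h2.trans (mul_one _).symm))
  rcases h3 with h | h
  · left
    rw [h, zero_add] at h1
    refine key b a hb ha hbb haa ?_ ?_ h1
    · rw [← ((Set.mem_center_iff.1 ha).comm b).eq, hab]
    · rw [add_comm, habe]
  · right
    exact key a b ha hb haa hbb hab habe h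

end Vale.Agent.P179
end
end
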